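import Vale.Agent.P050.O.H261.RowsEnt

set_option linter.all false

/-!
Targets dominated by `1 + c / D` times their own rank one kernel `d(x) d(y) / p`: no condition on
the degrees and on the density.
-/

open MeasureTheory Finset

noncomputable section

namespace Vale.Agent.P050.R2.H111.CL128

open Vale.Agent.P050 Vale.Agent.P050.Dense Vale.Agent.P050.R2.H111

/-- the reduction to a kernel of constant degree, for a kernel dominated by its rank one kernel -/
theorem cl_red {V X : Type} [Fintype V] [DecidableEq V] [Fintype X] [Nonempty X]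
    [MeasurableSpace X] [MeasurableSingletonClass X]
    (W : X → X → ℝ) (hs : ∀ x y, W x y = W y x) (h0 : ∀ x y, 0 ≤ W x y)
    (H : SimpleGraph V) [DecidableRel H.Adj]
    {θ : ℝ} (hθ0 : 0 ≤ θ) (hθ : θ ≤ 1) (hd : ∀ x, 0 < dgr W x)
    (hcl : ∀ x y, KK W x y ≤ 1 + θ) :
    ∃ (μ : Measure X) (U : Sym2 X → ℝ) (r : X → ℝ),
      IsProbabilityMeasure μ ∧ Ker μ U (2 * θ) θ ∧ (∀ s, 0 < μ.real {s}) ∧ (∀ s, 0 < r s) ∧
      ∑ s, μ.real {s} * (r s)⁻¹ = 1 ∧
      tden H W hs = pden W ^ H.edgeFinset.card *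
        ∑ z : V → X, (∏ v, μ.real {z v}) *
          ((∏ v, r (z v) ^ (H.degree v - 1)) * ∏ e ∈ H.edgeFinset, (1 + U (e.map z))) := by
  have hn := card_pos' (X := X)
  have hT : 0 < tot W := tot_pos hd
  obtain ⟨μ, hμ, hw⟩ := exists_measure (pi0 W) (pi0_pos hd) (sum_pi0 hd)
  set U : Sym2 X → ℝ := UU W hs with hU
  have hone : ∀ F : X → ℝ, ∫ z, F z ∂μ = ∑ z, pi0 W z * F z := integral_one hw
  have hpi : ∀ F : (V → X) → ℝ, ∫ z, F z ∂(piM V μ) = ∑ z : V → X, (∏ v, pi0 W (z v)) * F z :=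
    integral_piM hw
  have htwo : ∀ s t, two U s t = KK W s t - 1 := fun s t => UU_mk W hs s t
  have hzero : ∀ s, ∫ t, two U s t ∂μ = 0 := by
    intro s
    rw [hone]
    have : ∀ t, pi0 W t * two U s t = pi0 W t * KK W s t - pi0 W t := by
      intro t; rw [htwo]; ring
    simp_rw [this]
    rw [sum_sub_distrib, sum_KK hd, sum_pi0 hd, sub_self]
  have hup : ∀ x y, KK W x y - 1 ≤ θ := by
    intro x y
    have := hcl x y
    linarith
  have hker : Ker μ U (2 * θ) θ := by
    refine ⟨⟨measurable_of_finite _, one_pos, ?_⟩, hzero, by linarith, hθ0, ?_, ?_⟩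
    · intro e
      induction e with
      | h a b =>
        rw [hU, UU_mk, abs_le]
        have h2 := KK_nonneg h0 hd a b
        have h3 := hup a b
        constructor <;> linarith
    · intro s
      have h2 : ∫ t, |two U s t| ∂μ ≤ ∫ t, (2 * θ - two U s t) ∂μ := by
        refine integral_mono Integrable.of_finite Integrable.of_finite fun t => ?_
        show |two U s t| ≤ 2 * θ - two U s t
        rw [htwo, abs_le]
        have h3 := hup s t
        constructor <;> linarith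
      have h3 : ∫ t, (2 * θ - two U s t) ∂μ = 2 * θ := by
        rw [integral_sub Integrable.of_finite Integrable.of_finite, hzero]
        simp
      linarith
    · intro e
      induction e with
      | h a b =>
        rw [hU, UU_mk]
        exact hup a b
  have hrpos : ∀ x, 0 < rr W x := rr_pos hd
  have hpir : ∀ x, pi0 W x = rr W x / Fintype.card X := by
    intro x; unfold rr; field_simp
  have hr1' : ∑ s, pi0 W s * (rr W s)⁻¹ = 1 := by
    have h2 : ∀ z, pi0 W z * (rr W z)⁻¹ = (Fintype.card X : ℝ)⁻¹ := by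
      intro z
      rw [hpir]
      have := (hrpos z).ne'
      field_simp
    simp_rw [h2]
    rw [sum_const, card_univ, nsmul_eq_mul, mul_inv_cancel₀ hn.ne']
  have hr1 : ∫ s, (rr W s)⁻¹ ∂μ = 1 := by rw [hone]; exact hr1'
  have hpden : pden W = tot W / (Fintype.card X : ℝ) ^ 2 := rfl
  have ht : tden H W hs = pden W ^ H.edgeFinset.card *
      ∫ z, (∏ v, rr W (z v) ^ (H.degree v - 1)) *
        ∏ e ∈ H.edgeFinset, (1 + U (e.map z)) ∂(piM V μ) := by
    rw [← iso_out H U (rr W) hrpos hr1, hpi]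
    unfold tden
    have h2 : ∀ z : V → X, ∏ e ∈ H.edgeFinset, ev W hs z e =
        (pden W ^ H.edgeFinset.card * (Fintype.card X : ℝ) ^ Fintype.card V) *
          ((∏ v, pi0 W (z v)) * ((∏ v, rr W (z v) ^ H.degree v / rr W (z v)) *
            ∏ e ∈ H.edgeFinset, (1 + U (e.map z)))) := by
      intro z
      rw [prod_ev_eq H hs hd z, hpden]
      congr 3
      exact prod_congr rfl fun e _ => ev_eq_UU W hs z e
    simp_rw [h2]
    rw [← mul_sum]
    have h3 : (Fintype.card X : ℝ) ^ Fintype.card V ≠ 0 := (pow_pos hn _).ne'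
    field_simp
  refine ⟨μ, U, rr W, hμ, hker, fun s => by rw [hw]; exact pi0_pos hd s, hrpos, ?_, ?_⟩
  · simp_rw [hw]
    exact hr1'
  · rw [ht, hpi]
    simp_rw [hw]

end Vale.Agent.P050.R2.H111.CL128

namespace Vale.Agent.P050.Opt

open Vale.Agent.P050 Vale.Agent.P050.Dense Vale.Agent.P050.R2.H111

/-- targets dominated by their rank one kernel, from the laws of `Ent` -/
theorem cl_of_ent {V X : Type} [Fintype V] [DecidableEq V] [Fintype X] [DecidableEq X]
    [Nonempty X] (H : SimpleGraph V) [DecidableRel H.Adj] {D : ℕ} (hD1 : 1 ≤ D) {θ : ℝ}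
    (hθ0 : 0 ≤ θ) (hθ : 10 ^ 13 * (D:ℝ) * θ ≤ 1)
    (W : X → X → ℝ) (hs : ∀ x y, W x y = W y x) (h0 : ∀ x y, 0 ≤ W x y)
    (hd : ∀ x, 0 < ∑ y, W x y)
    (hcl : ∀ x y, (∑ a, ∑ b, W a b) * W x y ≤ (1 + θ) * ((∑ b, W x b) * ∑ b, W y b))
    (hwt : ∀ (m : MeasurableSpace X) (_ : MeasurableSingletonClass X) (μ : Measure X)
      [IsProbabilityMeasure μ] (U : Sym2 X → ℝ) (κ η : ℝ), (∀ s, 0 < μ.real {s}) →
      Ker μ U κ η → Wt (fun s => μ.real {s}) U)
    (hE : ∀ (m : MeasurableSpace X) (_ : MeasurableSingletonClass X) (μ : Measure X)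
      [IsProbabilityMeasure μ] (U : Sym2 X → ℝ) (κ η : ℝ), (∀ s, 0 < μ.real {s}) →
      Ker μ U κ η → (1 + η) ^ D ≤ 2 → 10 ^ 12 * (D:ℝ) * κ ≤ 1 →
      Ent H (fun s => μ.real {s}) U) :
    pden W ^ H.edgeFinset.card ≤ tden H W hs := by
  have hDpos : (1:ℝ) ≤ D := by exact_mod_cast hD1
  have hθD : (D:ℝ) * θ ≤ 1 / 10 ^ 13 := by
    rw [le_div_iff₀ (by norm_num)]
    linarith
  have hθ1 : θ ≤ 1 := by
    have : θ ≤ D * θ := le_mul_of_one_le_left hθ0 hDpos
    norm_num at hθD
    linarith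
  letI m : MeasurableSpace X := ⊤
  haveI hm : MeasurableSingletonClass X := ⟨fun _ => trivial⟩
  have hd' : ∀ x, 0 < dgr W x := hd
  have hK : ∀ x y, R2.H111.KK W x y ≤ 1 + θ := by
    intro x y
    unfold R2.H111.KK
    rw [div_le_iff₀ (mul_pos (hd' x) (hd' y)), mul_comm (W x y)]
    exact hcl x y
  obtain ⟨μ, U, r, hμ, hU, hat2, hrpos, hr1, ht⟩ := R2.H111.CL128.cl_red W hs h0 H hθ0 hθ1 hd' hK
  have hη : (1 + θ) ^ D ≤ 2 := by
    calc (1 + θ) ^ D ≤ (Real.exp θ) ^ D := by
          apply pow_le_pow_left₀ (by positivity)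
          linarith [Real.add_one_le_exp θ]
      _ = Real.exp (D * θ) := by rw [← Real.exp_nat_mul]
      _ ≤ Real.exp (1 / 2) := Real.exp_le_exp.2 (by norm_num at hθD ⊢; linarith)
      _ ≤ 2 := by
          have h3 : Real.exp (1 / 2) ^ 2 ≤ 2 ^ 2 := by
            rw [← Real.exp_nat_mul]
            norm_num
            linarith [Real.exp_one_lt_d9]
          exact le_of_sq_le_sq h3 (by norm_num)
  have hκ : 10 ^ 12 * (D:ℝ) * (2 * θ) ≤ 1 := by
    have : (0:ℝ) ≤ D * θ := mul_nonneg (by positivity) hθ0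
    linarith
  have h2 := H261.one_le_of_ent (hwt m hm μ U _ _ hat2 hU) (hE m hm μ U _ _ hat2 hU hη hκ)
    hrpos hr1 fun v => H.degree v - 1
  have hp0 : 0 ≤ pden W := by
    unfold pden
    exact div_nonneg (Finset.sum_nonneg fun x _ => Finset.sum_nonneg fun y _ => h0 x y)
      (by positivity)
  rw [ht]
  calc pden W ^ H.edgeFinset.card = pden W ^ H.edgeFinset.card * 1 := (mul_one _).symm
    _ ≤ _ := mul_le_mul_of_nonneg_left h2 (pow_nonneg hp0 _)

end Vale.Agent.P050.Opt
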