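import Mathlib

set_option linter.all false

/-!
Dense targets, graphs built by gluing: conditionally independent copies of a law (abstract form).
-/

open Finset

namespace Vale.Agent.P050.Opt.H128

section core

variable {Z Z₀ Y X ι : Type*} [Fintype Z] [Fintype Z₀] [Fintype Y] [Fintype X] [Fintype ι]

/-- the law of the copies -/
noncomputable def gc (p : ι → Z → Z₀) (q : Z → Y) (g : Z₀ → ℝ) (gS : Y → ℝ) (z : Z) : ℝ :=
  gS (q z) * ∏ i, (g (p i z) / gS (q z))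

omit [Fintype Z] [Fintype Z₀] [Fintype Y] in
theorem gc_nonneg {p : ι → Z → Z₀} {q : Z → Y} {g : Z₀ → ℝ} {gS : Y → ℝ} {j : Y → X → Z₀}
    (hg : ∀ z, 0 ≤ g z) (hgS : ∀ y, gS y = ∑ x, g (j y x)) (z : Z) : 0 ≤ gc p q g gS z := by
  have h1 : ∀ y, 0 ≤ gS y := fun y => by rw [hgS]; exact sum_nonneg fun x _ => hg _
  exact mul_nonneg (h1 _) (prod_nonneg fun i _ => div_nonneg (hg _) (h1 _))

theorem gc_exp {j : Y → X → Z₀} {r : Z₀ → Y} (hr : ∀ y x, r (j y x) = y) {p : ι → Z → Z₀}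
    {q : Z → Y} (hp : ∀ i z, r (p i z) = q z)
    (hdec : ∀ (a : ι → Z₀ → ℝ) (b : Y → ℝ),
      ∑ z, b (q z) * ∏ i, a i (p i z) = ∑ y, b y * ∏ i, ∑ x, a i (j y x))
    (hsum : ∀ F : Z₀ → ℝ, ∑ z, F z = ∑ y, ∑ x, F (j y x))
    {g : Z₀ → ℝ} (hg : ∀ z, 0 ≤ g z) {gS : Y → ℝ} (hgS : ∀ y, gS y = ∑ x, g (j y x))
    (i : ι) (φ : Z₀ → ℝ) :
    ∑ z, gc p q g gS z * φ (p i z) = ∑ z, g z * φ z := by
  classical
  have e1 : ∀ z, gc p q g gS z * φ (p i z) = gS (q z) * ∏ k, ((g (p k z) / gS (r (p k z))) *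
      (if k = i then φ (p k z) else 1)) := by
    intro z
    unfold gc
    simp only [hp]
    rw [prod_mul_distrib, prod_ite_eq' univ i (fun k => φ (p k z)), if_pos (mem_univ i)]
    ring
  rw [sum_congr rfl fun z _ => e1 z,
    hdec (fun k z' => (g z' / gS (r z')) * (if k = i then φ z' else 1)) gS, hsum]
  refine sum_congr rfl fun y _ => ?_
  by_cases h0 : gS y = 0
  · have h1 : ∀ x ∈ (univ : Finset X), g (j y x) = 0 := by
      have h2 := hgS y
      rw [h0] at h2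
      exact (sum_eq_zero_iff_of_nonneg fun x _ => hg _).1 h2.symm
    rw [h0, zero_mul]
    exact (sum_eq_zero fun x hx => by rw [h1 x hx, zero_mul]).symm
  · have h1 : ∀ k, ∑ x, (g (j y x) / gS (r (j y x))) * (if k = i then φ (j y x) else 1) =
        if k = i then (∑ x, g (j y x) * φ (j y x)) / gS y else 1 := by
      intro k
      simp only [hr]
      split_ifs with hk
      · rw [sum_div]
        exact sum_congr rfl fun x _ => by ring
      · simp only [mul_one]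
        rw [← sum_div, ← hgS, div_self h0]
    rw [prod_congr rfl fun k _ => h1 k,
      prod_ite_eq' univ i (fun _ => (∑ x, g (j y x) * φ (j y x)) / gS y), if_pos (mem_univ i)]
    field_simp

omit [Fintype Y] in
theorem gibbs_term {a b : ℝ} (ha : 0 ≤ a) (hb : 0 ≤ b) (h : b = 0 → a = 0) :
    a - b ≤ a * Real.log (a / b) := by
  rcases ha.eq_or_lt with h0 | h0
  · rw [← h0]; simp [hb]
  · have hb' : 0 < b := by
      rcases hb.eq_or_lt with h1 | h1
      · exact absurd (h h1.symm) h0.ne'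
      · exact h1
    have h2 := Real.log_le_sub_one_of_pos (div_pos hb' h0)
    have h3 : Real.log (a / b) = -Real.log (b / a) := by
      rw [← Real.log_inv, inv_div]
    rw [h3]
    have h4 := mul_le_mul_of_nonneg_left h2 h0.le
    have h5 : a * (b / a - 1) = b - a := by field_simp
    linarith

/-- relative entropy with respect to a subprobability -/
theorem gibbs {a b : Y → ℝ} (ha : ∀ y, 0 ≤ a y) (hb : ∀ y, 0 ≤ b y) (h : ∀ y, b y = 0 → a y = 0)
    (ha1 : ∑ y, a y = 1) (hb1 : ∑ y, b y ≤ 1) : 0 ≤ ∑ y, a y * Real.log (a y / b y) := by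
  have h1 : ∑ y, (a y - b y) ≤ ∑ y, a y * Real.log (a y / b y) :=
    sum_le_sum fun y _ => gibbs_term (ha y) (hb y) (h y)
  rw [sum_sub_distrib, ha1] at h1
  linarith

theorem gc_kl {j : Y → X → Z₀} {r : Z₀ → Y} (hr : ∀ y x, r (j y x) = y) {p : ι → Z → Z₀}
    {q : Z → Y} (hp : ∀ i z, r (p i z) = q z)
    (hdec : ∀ (a : ι → Z₀ → ℝ) (b : Y → ℝ),
      ∑ z, b (q z) * ∏ i, a i (p i z) = ∑ y, b y * ∏ i, ∑ x, a i (j y x))
    (hsum : ∀ F : Z₀ → ℝ, ∑ z, F z = ∑ y, ∑ x, F (j y x))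
    {g : Z₀ → ℝ} (hg : ∀ z, 0 ≤ g z) (hg1 : ∑ z, g z = 1) {gS : Y → ℝ}
    (hgS : ∀ y, gS y = ∑ x, g (j y x))
    (i₀ : ι) {m : Z → ℝ} {m₀ : Z₀ → ℝ} {mS : Y → ℝ}
    (hmS0 : ∀ y, 0 ≤ mS y) (hm0 : ∀ z, m₀ z = 0 → g z = 0) (hmS : ∀ z, mS (r z) = 0 → m₀ z = 0)
    (hm : ∀ z, m z * mS (q z) ^ (Fintype.card ι - 1) = ∏ i, m₀ (p i z))
    (hmS1 : ∑ y, mS y ≤ 1) (hkl : ∑ z, g z * Real.log (g z / m₀ z) ≤ 0) :
    ∑ z, gc p q g gS z * Real.log (gc p q g gS z / m z) ≤ 0 := by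
  classical
  obtain ⟨n, hn⟩ : ∃ n, Fintype.card ι = n + 1 :=
    ⟨Fintype.card ι - 1, by have := Fintype.card_pos_iff.2 ⟨i₀⟩; omega⟩
  have hn' : Fintype.card ι - 1 = n := by omega
  rw [hn'] at hm
  have hgS0 : ∀ y, 0 ≤ gS y := fun y => by rw [hgS]; exact sum_nonneg fun x _ => hg _
  set φ : Z₀ → ℝ := fun z => Real.log (g z / m₀ z) with hφ
  set ψ : Y → ℝ := fun y => Real.log (gS y / mS y) with hψ
  have hpt : ∀ z, gc p q g gS z * Real.log (gc p q g gS z / m z) =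
      ∑ i, gc p q g gS z * φ (p i z) - n * (gc p q g gS z * ψ (r (p i₀ z))) := by
    intro z
    by_cases h0 : gc p q g gS z = 0
    · rw [h0]; simp
    · have h1 : gS (q z) ≠ 0 := fun h => h0 (by unfold gc; rw [h, zero_mul])
      have h2 : ∀ i, g (p i z) ≠ 0 := fun i h => h0 (by
        unfold gc
        rw [prod_eq_zero (mem_univ i) (by rw [h, zero_div]), mul_zero])
      have h3 : ∀ i, m₀ (p i z) ≠ 0 := fun i h => h2 i (hm0 _ h)
      have h4 : mS (q z) ≠ 0 := fun h => h3 i₀ (hmS _ (by rw [hp]; exact h))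
      have h5 : m z ≠ 0 := by
        intro h
        have h6 := hm z
        rw [h, zero_mul] at h6
        exact (prod_ne_zero_iff.2 fun i _ => h3 i) h6.symm
      have h6 : gc p q g gS z * gS (q z) ^ n = ∏ i, g (p i z) := by
        unfold gc
        rw [prod_div_distrib, prod_const, card_univ, hn, pow_succ]
        field_simp
      have h7 : gc p q g gS z / m z * (gS (q z) / mS (q z)) ^ n =
          ∏ i, (g (p i z) / m₀ (p i z)) := by
        rw [prod_div_distrib, ← h6, ← hm z, div_pow]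
        field_simp
      have h8 := congrArg Real.log h7
      rw [Real.log_mul (div_ne_zero h0 h5) (pow_ne_zero _ (div_ne_zero h1 h4)), Real.log_pow,
        Real.log_prod fun i _ => div_ne_zero (h2 i) (h3 i)] at h8
      rw [← mul_sum, hp]
      have h9 : Real.log (gc p q g gS z / m z) = ∑ i, φ (p i z) - n * ψ (q z) := by
        rw [hφ, hψ]
        linarith
      rw [h9]
      ring
  rw [sum_congr rfl fun z _ => hpt z, sum_sub_distrib, sum_comm, ← mul_sum]
  have hA : ∑ i : ι, ∑ z, gc p q g gS z * φ (p i z) = (n + 1) * ∑ z, g z * φ z := by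
    rw [sum_congr rfl fun i _ => gc_exp hr hp hdec hsum hg hgS i φ, sum_const, card_univ, hn,
      nsmul_eq_mul]
    push_cast
    ring
  have hB : ∑ z, gc p q g gS z * ψ (r (p i₀ z)) = ∑ y, gS y * ψ y := by
    rw [gc_exp hr hp hdec hsum hg hgS i₀ (fun z => ψ (r z)), hsum]
    refine sum_congr rfl fun y _ => ?_
    simp only [hr]
    rw [← sum_mul, ← hgS]
  have hgS1 : ∑ y, gS y = 1 := by
    rw [← hg1, hsum]
    exact sum_congr rfl fun y _ => hgS y
  have hC : 0 ≤ ∑ y, gS y * ψ y := by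
    refine gibbs hgS0 hmS0 (fun y hy => ?_) hgS1 hmS1
    rw [hgS]
    exact sum_eq_zero fun x _ => hm0 _ (hmS _ (by rw [hr]; exact hy))
  rw [hA, hB]
  have h1 : ((n:ℝ) + 1) * ∑ z, g z * φ z ≤ 0 :=
    mul_nonpos_of_nonneg_of_nonpos (by positivity) hkl
  have h2 : 0 ≤ (n:ℝ) * ∑ y, gS y * ψ y := mul_nonneg (Nat.cast_nonneg n) hC
  linarith

end core

end Vale.Agent.P050.Opt.H128
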