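import Vale.Agent.P050.O.H128.CopCore
import Vale.Agent.P050.O.H234.CopEdge

set_option linter.all false

/-!
Dense targets, graphs built by gluing: copies of a graph glued along a forest.
-/

open MeasureTheory Finset

namespace Vale.Agent.P050.Opt

open Vale.Agent.P050 Vale.Agent.P050.Dense

/-- the weight of the part inside `S` divides the weight -/
theorem H128.mH_induce {V₀ Ω : Type} [Fintype V₀] (H : SimpleGraph V₀) (S : Set V₀) [Fintype S]
    {w : Ω → ℝ} (hw : ∀ s, 0 < w s) {U : Sym2 Ω → ℝ} (z : V₀ → Ω)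
    (h : mH (H.induce S) w U (fun u : S => z u) = 0) : mH H w U z = 0 := by
  classical
  unfold mH at h ⊢
  rcases mul_eq_zero.1 h with h1 | h1
  · exact absurd h1 (prod_ne_zero_iff.2 fun v _ => (hw _).ne')
  · obtain ⟨e, he, h2⟩ := prod_eq_zero_iff.1 h1
    refine mul_eq_zero_of_right _ (prod_eq_zero (i := e.map Subtype.val) ?_ ?_)
    · rw [SimpleGraph.mem_edgeFinset] at he ⊢
      induction e using Sym2.ind with
      | _ a b => exact he
    · rw [Sym2.map_map]
      exact h2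

theorem ent_copies_of {V Ω : Type} [Fintype V] [DecidableEq V] [Fintype Ω] [DecidableEq Ω]
    {V₀ ι : Type} [Fintype V₀] [DecidableEq V₀] [Fintype ι] (H : SimpleGraph V₀) (S : Set V₀)
    (f : ι → V₀ ↪ V) (h1 : ∀ i j, ∀ u ∈ S, f i u = f j u)
    (h2 : ∀ i j u v, f i u = f j v → u = v ∧ (i = j ∨ u ∈ S)) (h3 : ∀ x, ∃ i u, f i u = x)
    {w : Ω → ℝ} {U : Sym2 Ω → ℝ} (hw : Wt w U)
    (hf : ∀ [Fintype S], ∑ z : S → Ω, mH (H.induce S) w U z ≤ 1) (hE : Ent H w U) :
    Ent (⨆ i, H.map (f i)) w U := by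
  classical
  rcases isEmpty_or_nonempty ι with hι | ⟨⟨i₀⟩⟩
  · -- no copy: no vertex
    haveI hV : IsEmpty V := ⟨fun x => by
      obtain ⟨i, -⟩ := h3 x
      exact hι.elim i⟩
    have hm : ∀ z : V → Ω, mH (⨆ i, H.map (f i)) w U z = 1 := by
      intro z
      unfold mH
      rw [univ_eq_empty, prod_empty, one_mul]
      refine prod_eq_one fun e _ => ?_
      induction e using Sym2.ind with
      | _ a b => exact hV.elim a
    refine ⟨fun _ => 1, fun _ => zero_le_one, ?_, fun v => hV.elim v, fun z hz => ?_, ?_⟩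
    · simp
    · rw [hm] at hz
      exact absurd hz one_ne_zero
    · simp [hm]
  · haveI hSf : Fintype S := Fintype.ofFinite S
    obtain ⟨g, hg, hg1, hgm, hg0, hkl⟩ := hE
    set r : (V₀ → Ω) → (S → Ω) := fun z u => z u with hr
    set q : (V → Ω) → (S → Ω) := fun z u => z (f i₀ u) with hq
    set p : ι → (V → Ω) → (V₀ → Ω) := fun i z => z ∘ f i with hp
    have hrj : ∀ (y : S → Ω) (x : (Sᶜ : Set V₀) → Ω), r (H234.jn S y x) = y := by
      intro y x
      funext u
      exact H234.jn_mem u.2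
    have hpq : ∀ i z, r (p i z) = q z := by
      intro i z
      funext u
      show z (f i u) = z (f i₀ u)
      rw [h1 i i₀ u u.2]
    have hdec : ∀ (a : ι → (V₀ → Ω) → ℝ) (b : (S → Ω) → ℝ),
        ∑ z, b (q z) * ∏ i, a i (p i z) =
          ∑ y, b y * ∏ i, ∑ x : (Sᶜ : Set V₀) → Ω, a i (H234.jn S y x) :=
      fun a b => H234.copies_sum S f i₀ h1 h2 h3 a b
    have hsum : ∀ F : (V₀ → Ω) → ℝ, ∑ z, F z =
        ∑ y : S → Ω, ∑ x : (Sᶜ : Set V₀) → Ω, F (H234.jn S y x) := fun F => H234.sum_jn S F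
    set gS : (S → Ω) → ℝ := fun y => ∑ x : (Sᶜ : Set V₀) → Ω, g (H234.jn S y x) with hgS
    have hgS' : ∀ y, gS y = ∑ x : (Sᶜ : Set V₀) → Ω, g (H234.jn S y x) := fun y => rfl
    have hexp := fun (i : ι) (φ : (V₀ → Ω) → ℝ) =>
      H128.gc_exp hrj hpq hdec hsum hg hgS' i φ
    refine ⟨H128.gc p q g gS, H128.gc_nonneg hg hgS', ?_, ?_, ?_, ?_⟩
    · have h := hexp i₀ (fun _ => 1)
      simp only [mul_one] at h
      rw [h, hg1]
    · intro v s
      obtain ⟨i, u, rfl⟩ := h3 v
      have h := hexp i (fun z => if z u = s then 1 else 0)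
      rw [sum_filter, ← hgm u s, sum_filter]
      simp only [mul_ite, mul_one, mul_zero] at h
      exact h
    · intro z hz
      have h := H234.mH_copies H S f i₀ h1 h2 h3 w U z
      rw [hz, zero_mul] at h
      obtain ⟨i, -, hi⟩ := prod_eq_zero_iff.1 h.symm
      show gS (q z) * ∏ i, (g (p i z) / gS (q z)) = 0
      rw [prod_eq_zero (mem_univ i) (by rw [show g (p i z) = 0 from hg0 _ hi, zero_div]), mul_zero]
    · refine H128.gc_kl hrj hpq hdec hsum hg hg1 hgS' i₀ (m := fun z => mH (⨆ i, H.map (f i)) w U z)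
        (m₀ := mH H w U) (mS := mH (H.induce S) w U) ?_ hg0 ?_ ?_ hf hkl
      · intro y
        exact mul_nonneg (prod_nonneg fun v _ => (hw.pos _).le) (prod_nonneg fun e _ => hw.nn _)
      · intro z hz
        exact H128.mH_induce H S hw.pos z hz
      · intro z
        exact H234.mH_copies H S f i₀ h1 h2 h3 w U z

end Vale.Agent.P050.Opt
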