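import Vale.Agent.P050.O.H128.Copies
import Vale.Agent.P050.O.H625.Forest

set_option linter.all false

/-!
Dense targets, graphs built by gluing: copies of a graph glued along a forest.
-/

open MeasureTheory Finset

namespace Vale.Agent.P050.Opt

open Vale.Agent.P050 Vale.Agent.P050.Dense

variable {V : Type} [Fintype V] [DecidableEq V] {Ω : Type} [Fintype Ω] [DecidableEq Ω]

/-- E3: copies -/
theorem ent_copies {V₀ ι : Type} [Fintype V₀] [DecidableEq V₀] [Fintype ι] (H : SimpleGraph V₀)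
    (S : Set V₀) (f : ι → V₀ ↪ V) (hS : (H.induce S).IsAcyclic)
    (h1 : ∀ i j, ∀ u ∈ S, f i u = f j u)
    (h2 : ∀ i j u v, f i u = f j v → u = v ∧ (i = j ∨ u ∈ S)) (h3 : ∀ x, ∃ i u, f i u = x)
    {w : Ω → ℝ} {U : Sym2 Ω → ℝ} (hw : Wt w U) (hE : Ent H w U) :
    Ent (⨆ i, H.map (f i)) w U := by
  classical
  exact ent_copies_of H S f h1 h2 h3 hw (fun {_} => (H625.sum_mH_forest hS hw).le) hE

end Vale.Agent.P050.Opt
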