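import Vale.Agent.P050.O.H300.AsmDefs

set_option linter.all false

/-!
Gluing Sidorenko graphs along an edge: definitions and the statements of the modules.
-/

open MeasureTheory Finset

namespace Vale.Agent.P050.Opt

open Vale.Agent.P050 Vale.Agent.P050.Dense

section

variable {V : Type*} [Fintype V] [DecidableEq V] {Ω : Type*} [Fintype Ω] [DecidableEq Ω]

/-- a law of configurations with all vertex marginals `w`, all edge marginals
`w s * w t * (1 + U s(s, t))`, and nonpositive relative entropy with respect to `mH` -/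
def EntE (H : SimpleGraph V) (w : Ω → ℝ) (U : Sym2 Ω → ℝ) : Prop :=
  ∃ g : (V → Ω) → ℝ, (∀ z, 0 ≤ g z) ∧ ∑ z, g z = 1 ∧
    (∀ v s, ∑ z ∈ univ.filter (fun z : V → Ω => z v = s), g z = w s) ∧
    (∀ u v, H.Adj u v → ∀ s t, ∑ z ∈ univ.filter (fun z : V → Ω => z u = s ∧ z v = t), g z =
      w s * w t * (1 + U s(s, t))) ∧
    (∀ z, mH H w U z = 0 → g z = 0) ∧
    ∑ z, g z * Real.log (g z / mH H w U z) ≤ 0

end

/-- P1: the law of large numbers for pairs -/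
def PairLln : Prop := ∀ {Ω : Type} [Fintype Ω] [DecidableEq Ω] {w : Ω → ℝ} {U : Sym2 Ω → ℝ}
  (_ : Wt w U) {δ : ℝ} (_ : 0 < δ),
  ∀ᶠ N : ℕ in Filter.atTop, (1 / 2 : ℝ) ≤ ∑ X : Fin N → Ω, ∑ Y : Fin N → Ω,
    (open scoped Classical in
      if ∀ s t, |emp (fun i => (X i, Y i)) (s, t) - w s * w t * (1 + U s(s, t))| ≤ δ
      then ∏ i, (w (X i) * w (Y i) * (1 + U s(X i, Y i))) else 0)

/-- P2: Sidorenko's inequality for a set of sequences and a set of pairs of sequences -/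
def SidPair : Prop := ∀ {V : Type} [Fintype V] [DecidableEq V] {Ω : Type} [Fintype Ω]
  [DecidableEq Ω] {H : SimpleGraph V} (_ : IsSidorenko H) {w : Ω → ℝ} {U : Sym2 Ω → ℝ}
  (_ : Wt w U) {N : ℕ} (T : Set (Fin N → Ω)) (R : (Fin N → Ω) → (Fin N → Ω) → Prop)
  (_ : ∀ x y, R x y → R y x)
  (_ : (1 / 2 : ℝ) ≤ ∑ x : Fin N → Ω, ∑ y : Fin N → Ω, (open scoped Classical in
    if x ∈ T ∧ y ∈ T ∧ R x y then ∏ i, (w (x i) * w (y i) * (1 + U s(x i, y i))) else 0)),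
  (1 / 2 : ℝ) ^ (Fintype.card V + Nat.card H.edgeSet) ≤
    ∑ Z : Fin N → (V → Ω), (open scoped Classical in
      if (∀ v, (fun i => Z i v) ∈ T) ∧
        ∀ u v, H.Adj u v → R (fun i => Z i u) (fun i => Z i v)
      then ∏ i, mH H w U (Z i) else 0)

/-- P3: compactness -/
def ApproxE : Prop := ∀ {V : Type} [Fintype V] [DecidableEq V] {Ω : Type} [Fintype Ω]
  [DecidableEq Ω] {H : SimpleGraph V} {w : Ω → ℝ} {U : Sym2 Ω → ℝ}
  (_ : ∀ ε : ℝ, 0 < ε → ∃ g : (V → Ω) → ℝ, (∀ z, 0 ≤ g z) ∧ ∑ z, g z = 1 ∧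
    (∀ v s, |∑ z ∈ univ.filter (fun z : V → Ω => z v = s), g z - w s| ≤ ε) ∧
    (∀ u v, H.Adj u v → ∀ s t, |∑ z ∈ univ.filter (fun z : V → Ω => z u = s ∧ z v = t), g z -
      w s * w t * (1 + U s(s, t))| ≤ ε) ∧
    (∀ z, mH H w U z = 0 → g z = 0) ∧ ∑ z, g z * Real.log (g z / mH H w U z) ≤ ε),
  EntE H w U

end Vale.Agent.P050.Opt
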