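import Vale.Agent.P050.O.H300.Defs
import Vale.Agent.P050.R2.H300.Basic

set_option linter.all false

/-!
Dense targets, optimal order: the exploration (S2), from the single step (S1).
-/

open MeasureTheory Finset

namespace Vale.Agent.P050.Opt

open Vale.Agent.P050 Vale.Agent.P050.Dense

namespace H128

section graph

variable {V : Type*} [Fintype V] [DecidableEq V]

theorem vs_eq (a : V) (L : List V) : vs a L = insert (hd a L) (pv a L) := by
  cases L with
  | nil => simp [vs, hd, pv]
  | cons w L =>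
    simp only [vs, hd, pv, List.toFinset_cons]
    rw [Finset.insert_comm]

theorem hd_mem_vs (a : V) (L : List V) : hd a L ∈ vs a L := by
  rw [vs_eq]
  exact Finset.mem_insert_self _ _

theorem vs_cons (a w : V) (L : List V) : vs a (w :: L) = insert w (vs a L) := by
  simp only [vs, List.toFinset_cons]
  rw [Finset.insert_comm]

variable (H : SimpleGraph V) [DecidableRel H.Adj]

theorem mem_Wk_succ {a : V} {Λ : Finset V} {j : ℕ} {L : List V} :
    L ∈ Wk H a Λ (j + 1) ↔ ∃ L' ∈ Wk H a Λ j, ∃ w ∈ Λ \ vs a L', H.Adj (hd a L') w ∧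
      L = w :: L' := by
  simp only [Wk, Finset.mem_biUnion, Finset.mem_image, Finset.mem_filter]
  constructor
  · rintro ⟨L', h1, w, ⟨h2, h3⟩, h4⟩
    exact ⟨L', h1, w, h2, h3, h4.symm⟩
  · rintro ⟨L', h1, w, h2, h3, h4⟩
    exact ⟨L', h1, w, ⟨h2, h3⟩, h4.symm⟩

theorem Wk_card {a : V} {Λ : Finset V} : ∀ {j : ℕ} {L : List V}, L ∈ Wk H a Λ j →
    (vs a L).card = j + 1
  | 0, L, h => by
    simp only [Wk, Finset.mem_singleton] at h
    subst h
    simp [vs]
  | j + 1, L, h => by
    obtain ⟨L', h1, w, h2, -, rfl⟩ := (mem_Wk_succ H).1 h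
    rw [vs_cons, Finset.card_insert_of_notMem (Finset.mem_sdiff.1 h2).2, Wk_card h1]

theorem Wk_empty {a : V} {Λ : Finset V} : Wk H a Λ (Fintype.card V) = ∅ := by
  rw [Finset.eq_empty_iff_forall_notMem]
  intro L hL
  have h1 := Wk_card H hL
  have h2 := Finset.card_le_univ (vs a L)
  omega

theorem sum_Wk_succ {a : V} {Λ : Finset V} {j : ℕ} (f : List V → ℝ) :
    ∑ L ∈ Wk H a Λ (j + 1), f L =
      ∑ L ∈ Wk H a Λ j, ∑ w ∈ (Λ \ vs a L).filter (fun w => H.Adj (hd a L) w), f (w :: L) := by
  simp only [Wk]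
  rw [Finset.sum_biUnion]
  · refine Finset.sum_congr rfl fun L _ => ?_
    rw [Finset.sum_image]
    intro w _ w' _ h
    exact (List.cons.inj h).1
  · intro L _ L' _ hne
    rw [Function.onFun, Finset.disjoint_left]
    intro M hM hM'
    rw [Finset.mem_image] at hM hM'
    obtain ⟨w, -, h1⟩ := hM
    obtain ⟨w', -, h2⟩ := hM'
    exact hne (List.cons.inj (h1.trans h2.symm)).2

end graph

section kernel

variable {V : Type*} [Fintype V] [DecidableEq V] {Ω : Type*} [MeasurableSpace Ω]
variable {U : Sym2 Ω → ℝ}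

theorem bm_pU (hU : Good U 1) (a : V) (L : List V) : BM (pU U a L) := by
  induction L with
  | nil => exact BM.const 1
  | cons w L ih => exact (bm_U hU (hd a L) w).mul ih

theorem ind_U {u v w : V} (h1 : u ≠ w) (h2 : v ≠ w) : Ind w (fun z : V → Ω => U s(z u, z v)) := by
  intro x t
  simp only [Function.update_of_ne h1, Function.update_of_ne h2]

theorem ind_mul {w : V} {f g : (V → Ω) → ℝ} (hf : Ind w f) (hg : Ind w g) :
    Ind w (fun z => f z * g z) := by
  intro x t
  simp only [hf x t, hg x t]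

theorem ind_pU {a : V} {L : List V} {w : V} (h : w ∉ vs a L) : Ind w (pU U a L) := by
  induction L with
  | nil =>
    intro x t
    rfl
  | cons v L ih =>
    rw [vs_cons, Finset.mem_insert, not_or] at h
    have h1 : hd a L ≠ w := fun e => h.2 (e ▸ hd_mem_vs a L)
    exact ind_mul (ind_U h1 (Ne.symm h.1)) (ih h.2)

end kernel

section explore

variable {V : Type*} [Fintype V] [DecidableEq V] {Ω : Type*} [MeasurableSpace Ω]
variable (H : SimpleGraph V) [DecidableRel H.Adj] (o : V → ℕ)
variable (μ : Measure Ω) [IsProbabilityMeasure μ] {U : Sym2 Ω → ℝ} {R : V → Ω → ℝ} {κ η : ℝ}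

/-- the statement of the single step -/
def StepStmt (U : Sym2 Ω → ℝ) (R : V → Ω → ℝ) : Prop :=
  ∀ (X Λ : Finset V) (O : V → Finset V) (u p : V) (g : (V → Ω) → ℝ), BM g → Ind u g →
    (∀ w ∈ Λ, Ind w g) → p ∈ X → u ∉ X → u ∉ Λ → Disjoint X Λ →
    IT H μ U R (fun z => g z * U s(z p, z u)) X O (insert u Λ) =
      ∑ q ∈ Cq X O u, IT H μ U R (fun z => g z * U s(z p, z u) * cl U R u q.1 q.2 z)
        (insert u X) (Function.update O u (H.neighborFinset u)) Λ +
      ∑ w ∈ Λ.filter (fun w => H.Adj u w),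
        IT H μ U R (fun z => g z * U s(z p, z u) * U s(z u, z w)) (insert u X)
          (Function.update O u ((H.neighborFinset u).filter fun w' => o w' < o w)) Λ

/-- the state of a leaf -/
noncomputable def leaf (U : Sym2 Ω → ℝ) (R : V → Ω → ℝ) (g : (V → Ω) → ℝ) (X Λ : Finset V)
    (O : V → Finset V) (s a : V) (L : List V) : ℝ :=
  IT H μ U R (fun z => g z * U s(z s, z a) * pU U a L z) (X ∪ pv a L) (kO H o O a L)
    (insert (hd a L) (Λ \ vs a L))

/-- the state of a closing -/
noncomputable def clsd (U : Sym2 Ω → ℝ) (R : V → Ω → ℝ) (g : (V → Ω) → ℝ) (X Λ : Finset V)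
    (O : V → Finset V) (s a : V) (L : List V) (q : Finset V × Bool) : ℝ :=
  IT H μ U R (fun z => g z * U s(z s, z a) * pU U a L z * cl U R (hd a L) q.1 q.2 z)
    (X ∪ vs a L) (Function.update (kO H o O a L) (hd a L) (H.neighborFinset (hd a L)))
    (Λ \ vs a L)

theorem leaf_step (hstep : StepStmt H o μ U R) (hU : Ker μ U κ η) {X Λ : Finset V}
    {O : V → Finset V} {s a : V} {g : (V → Ω) → ℝ} (hg : BM g) (hgX : ∀ w ∉ X, Ind w g)
    (hs : s ∈ X) (haX : a ∉ X) (haΛ : a ∉ Λ) (hX : Disjoint X Λ) {j : ℕ} {L : List V}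
    (hL : L ∈ Wk H a Λ j) :
    leaf H o μ U R g X Λ O s a L =
      ∑ q ∈ Cq (X ∪ pv a L) (kO H o O a L) (hd a L), clsd H o μ U R g X Λ O s a L q +
      ∑ w ∈ (Λ \ vs a L).filter (fun w => H.Adj (hd a L) w),
        leaf H o μ U R g X Λ O s a (w :: L) := by
  -- the last factor
  have hΛX : ∀ w ∈ Λ, w ∉ X := fun w hw h => (Finset.disjoint_left.1 hX h hw).elim
  have hfac : ∃ (p : V) (g' : (V → Ω) → ℝ), BM g' ∧ Ind (hd a L) g' ∧
      (∀ w ∈ Λ \ vs a L, Ind w g') ∧ p ∈ X ∪ pv a L ∧ hd a L ∉ X ∪ pv a L ∧ hd a L ∉ Λ \ vs a L ∧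
      ∀ z, g z * U s(z s, z a) * pU U a L z = g' z * U s(z p, z (hd a L)) := by
    cases L with
    | nil =>
      refine ⟨s, g, hg, hgX a haX, fun w hw => hgX w (hΛX w (Finset.mem_sdiff.1 hw).1), ?_, ?_, ?_,
        fun z => ?_⟩
      · exact Finset.mem_union_left _ hs
      · simpa [pv, hd] using haX
      · simp only [hd, Finset.mem_sdiff, not_and]
        exact fun h => absurd h haΛ
      · simp [pU, hd]
    | cons w L' =>
      cases j with
      | zero => simp [Wk] at hL
      | succ j =>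
        obtain ⟨L'', h1, w', h2, h3, h4⟩ := (mem_Wk_succ H).1 hL
        obtain ⟨rfl, rfl⟩ := List.cons.inj h4
        rw [Finset.mem_sdiff] at h2
        have hwX : w ∉ X := hΛX w h2.1
        have hsw : s ≠ w := fun e => hwX (e ▸ hs)
        have haw : a ≠ w := fun e => haΛ (e ▸ h2.1)
        refine ⟨hd a L', fun z => g z * U s(z s, z a) * pU U a L' z, ?_, ?_, ?_, ?_, ?_, ?_, ?_⟩
        · exact (hg.mul (bm_U hU.good s a)).mul (bm_pU hU.good a L')
        · exact ind_mul (ind_mul (hgX w hwX) (ind_U hsw haw)) (ind_pU h2.2)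
        · intro v hv
          rw [Finset.mem_sdiff, vs_cons, Finset.mem_insert, not_or] at hv
          have hvX : v ∉ X := hΛX v hv.1
          refine ind_mul (ind_mul (hgX v hvX) (ind_U ?_ ?_)) (ind_pU hv.2.2)
          · exact fun e => hvX (e ▸ hs)
          · exact fun e => haΛ (e ▸ hv.1)
        · exact Finset.mem_union_right _ (hd_mem_vs a L')
        · simp only [hd, pv, Finset.mem_union, not_or]
          exact ⟨hwX, h2.2⟩
        · simp only [hd, Finset.mem_sdiff, not_and, not_not]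
          exact fun _ => by rw [vs_cons]; exact Finset.mem_insert_self _ _
        · intro z
          simp only [pU, hd]
          ring
  obtain ⟨p, g', hg', h1, h2, h3, h4, h5, h6⟩ := hfac
  have hXL : Disjoint (X ∪ pv a L) (Λ \ vs a L) := by
    rw [Finset.disjoint_left]
    intro v hv hv'
    rw [Finset.mem_sdiff] at hv'
    rcases Finset.mem_union.1 hv with h | h
    · exact hΛX v hv'.1 h
    · exact hv'.2 (by rw [vs_eq]; exact Finset.mem_insert_of_mem h)
  have key := hstep (X ∪ pv a L) (Λ \ vs a L) (kO H o O a L) (hd a L) p g' hg' h1 h2 h3 h4 h5 hXL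
  have hins : insert (hd a L) (X ∪ pv a L) = X ∪ vs a L := by
    rw [vs_eq, Finset.union_insert]
  have hfun : (fun z => g z * U s(z s, z a) * pU U a L z) =
      fun z => g' z * U s(z p, z (hd a L)) := funext h6
  unfold leaf
  rw [hfun, key]
  congr 1
  · refine Finset.sum_congr rfl fun q _ => ?_
    unfold clsd
    rw [hins]
    congr 1
    funext z
    rw [h6]
  · refine Finset.sum_congr rfl fun w hw => ?_
    rw [Finset.mem_filter] at hw
    have e1 : insert (hd a (w :: L)) (Λ \ vs a (w :: L)) = Λ \ vs a L := by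
      ext v
      simp only [hd, vs_cons, Finset.mem_insert, Finset.mem_sdiff, not_or]
      constructor
      · rintro (rfl | ⟨h7, h8, h9⟩)
        · exact Finset.mem_sdiff.1 hw.1
        · exact ⟨h7, h9⟩
      · rintro ⟨h7, h8⟩
        by_cases h9 : v = w
        · exact Or.inl h9
        · exact Or.inr ⟨h7, h9, h8⟩
    rw [e1, hins]
    have e2 : X ∪ pv a (w :: L) = X ∪ vs a L := rfl
    rw [e2]
    have e3 : kO H o O a (w :: L) = Function.update (kO H o O a L) (hd a L)
        ((H.neighborFinset (hd a L)).filter fun w' => o w' < o w) := rfl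
    rw [e3]
    congr 1
    funext z
    rw [← h6]
    simp only [pU]
    ring

theorem leaf_sum (hstep : StepStmt H o μ U R) (hU : Ker μ U κ η) {X Λ : Finset V}
    {O : V → Finset V} {s a : V} {g : (V → Ω) → ℝ} (hg : BM g) (hgX : ∀ w ∉ X, Ind w g)
    (hs : s ∈ X) (haX : a ∉ X) (haΛ : a ∉ Λ) (hX : Disjoint X Λ) (n : ℕ) :
    leaf H o μ U R g X Λ O s a [] =
      ∑ j ∈ range n, ∑ L ∈ Wk H a Λ j,
        ∑ q ∈ Cq (X ∪ pv a L) (kO H o O a L) (hd a L), clsd H o μ U R g X Λ O s a L q +
      ∑ L ∈ Wk H a Λ n, leaf H o μ U R g X Λ O s a L := by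
  induction n with
  | zero => simp [Wk]
  | succ n ih =>
    rw [ih, Finset.sum_range_succ, sum_Wk_succ, add_assoc]
    congr 1
    rw [← Finset.sum_add_distrib]
    exact Finset.sum_congr rfl fun L hL => leaf_step H o μ hstep hU hg hgX hs haX haΛ hX hL

theorem explore_of (hstep : StepStmt H o μ U R) (hU : Ker μ U κ η) {X Λ : Finset V}
    {O : V → Finset V} {s a : V} {g : (V → Ω) → ℝ} (hg : BM g) (hgX : ∀ w ∉ X, Ind w g)
    (hs : s ∈ X) (haX : a ∉ X) (haΛ : a ∉ Λ) (hX : Disjoint X Λ) :
    IT H μ U R (fun z => g z * U s(z s, z a)) X O (insert a Λ) =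
      ∑ j ∈ range (Fintype.card V), ∑ L ∈ Wk H a Λ j,
        ∑ q ∈ Cq (X ∪ pv a L) (kO H o O a L) (hd a L),
          IT H μ U R (fun z => g z * U s(z s, z a) * pU U a L z * cl U R (hd a L) q.1 q.2 z)
            (X ∪ vs a L) (Function.update (kO H o O a L) (hd a L) (H.neighborFinset (hd a L)))
            (Λ \ vs a L) := by
  have h1 := leaf_sum H o μ hstep hU (O := O) hg hgX hs haX haΛ hX (Fintype.card V)
  rw [Wk_empty, Finset.sum_empty, add_zero] at h1
  have h2 : leaf H o μ U R g X Λ O s a [] =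
      IT H μ U R (fun z => g z * U s(z s, z a)) X O (insert a Λ) := by
    unfold leaf
    have e1 : X ∪ pv a [] = X := by simp [pv]
    have e2 : insert (hd a []) (Λ \ vs a []) = insert a Λ := by
      ext v
      simp only [hd, vs, List.toFinset_nil, Finset.mem_insert, Finset.mem_sdiff,
        Finset.notMem_empty, or_false]
      constructor
      · rintro (h | ⟨h, _⟩)
        · exact Or.inl h
        · exact Or.inr h
      · rintro (h | h)
        · exact Or.inl h
        · by_cases h3 : v = a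
          · exact Or.inl h3
          · exact Or.inr ⟨h, h3⟩
    rw [e1, e2]
    congr 1
    funext z
    simp [pU]
  rw [← h2, h1]
  rfl

end explore

end H128

end Vale.Agent.P050.Opt
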