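import Vale.Agent.P050.O.H128.Tree

set_option linter.all false

/-!
Dense targets, assembled graphs: the weight of a configuration of two graphs glued along a set.
-/

open MeasureTheory Finset

namespace Vale.Agent.P050.Opt

open Vale.Agent.P050 Vale.Agent.P050.Dense

/-- the weight of the glued graph -/
theorem H128.mH_glueS {V₁ V₀ V Ω : Type} [Fintype V₁] [Fintype V₀] [Fintype V]
    (G₁ : SimpleGraph V₁) (H : SimpleGraph V₀) (p : V₁ ↪ V) (f : V₀ ↪ V) (S : Set V₀) [Fintype S]
    (σ : S → V₁) (hσ : ∀ u : S, p (σ u) = f u) (hnew : ∀ u, u ∉ S → ∀ x, p x ≠ f u)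
    (hc : ∀ x, (∃ a, p a = x) ∨ ∃ b, f b = x)
    (hedge : ∀ u v : S, H.Adj u v → G₁.Adj (σ u) (σ v))
    (w : Ω → ℝ) (U : Sym2 Ω → ℝ) (z : V → Ω) :
    mH (G₁.map p ⊔ H.map f) w U z * mH (H.induce S) w U (fun u : S => z (f u)) =
      mH G₁ w U (z ∘ p) * mH H w U (z ∘ f) := by
  classical
  unfold mH
  -- vertices
  have ev : (∏ v, w (z v)) * ∏ u : S, w (z (f u)) =
      (∏ a, w ((z ∘ p) a)) * ∏ b, w ((z ∘ f) b) := by
    have e1 : ∏ a, w ((z ∘ p) a) = ∏ v ∈ (univ : Finset V₁).map p, w (z v) := by
      rw [prod_map]; rfl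
    have e2 : ∏ b, w ((z ∘ f) b) = ∏ v ∈ (univ : Finset V₀).map f, w (z v) := by
      rw [prod_map]; rfl
    have e3 : ∏ u : S, w (z (f u)) =
        ∏ v ∈ (univ : Finset S).map ((Function.Embedding.subtype _).trans f), w (z v) := by
      rw [prod_map]; rfl
    have e4 : (univ : Finset V) = (univ : Finset V₁).map p ∪ (univ : Finset V₀).map f := by
      ext x
      simp only [mem_univ, mem_union, mem_map, true_and, true_iff]
      exact hc x
    have e5 : (univ : Finset S).map ((Function.Embedding.subtype _).trans f) =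
        (univ : Finset V₁).map p ∩ (univ : Finset V₀).map f := by
      ext x
      simp only [mem_univ, mem_inter, mem_map, true_and, Function.Embedding.trans_apply,
        Function.Embedding.subtype_apply]
      constructor
      · rintro ⟨u, rfl⟩
        exact ⟨⟨σ u, hσ u⟩, u, rfl⟩
      · rintro ⟨⟨a, ha⟩, b, hb⟩
        by_cases hbS : b ∈ S
        · exact ⟨⟨b, hbS⟩, hb⟩
        · exact absurd (ha.trans hb.symm) (hnew b hbS a)
    rw [e1, e2, e3, e5, e4, prod_union_inter]
  -- edges
  have ee : (∏ e ∈ (G₁.map p ⊔ H.map f).edgeFinset, (1 + U (e.map z))) *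
      ∏ e ∈ (H.induce S).edgeFinset, (1 + U (e.map fun u : S => z (f u))) =
      (∏ e ∈ G₁.edgeFinset, (1 + U (e.map (z ∘ p)))) *
        ∏ e ∈ H.edgeFinset, (1 + U (e.map (z ∘ f))) := by
    set fS : S ↪ V := (Function.Embedding.subtype _).trans f with hfS
    have e1 : ∏ e ∈ G₁.edgeFinset, (1 + U (e.map (z ∘ p))) =
        ∏ e ∈ G₁.edgeFinset.image (Sym2.map p), (1 + U (e.map z)) := by
      rw [prod_image fun a _ b _ hab => Sym2.map.injective p.injective hab]
      exact prod_congr rfl fun e _ => by rw [Sym2.map_map]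
    have e2 : ∏ e ∈ H.edgeFinset, (1 + U (e.map (z ∘ f))) =
        ∏ e ∈ H.edgeFinset.image (Sym2.map f), (1 + U (e.map z)) := by
      rw [prod_image fun a _ b _ hab => Sym2.map.injective f.injective hab]
      exact prod_congr rfl fun e _ => by rw [Sym2.map_map]
    have e3 : ∏ e ∈ (H.induce S).edgeFinset, (1 + U (e.map fun u : S => z (f u))) =
        ∏ e ∈ (H.induce S).edgeFinset.image (Sym2.map fS), (1 + U (e.map z)) := by
      rw [prod_image fun a _ b _ hab => Sym2.map.injective fS.injective hab]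
      exact prod_congr rfl fun e _ => by rw [Sym2.map_map]; rfl
    have e4 : (G₁.map p ⊔ H.map f).edgeFinset =
        G₁.edgeFinset.image (Sym2.map p) ∪ H.edgeFinset.image (Sym2.map f) := by
      ext e
      rw [mem_union, mem_image, mem_image]
      simp only [SimpleGraph.mem_edgeFinset]
      induction e using Sym2.ind with
      | _ a b =>
        rw [SimpleGraph.mem_edgeSet, SimpleGraph.sup_adj, SimpleGraph.map_adj,
          SimpleGraph.map_adj]
        constructor
        · rintro (⟨u, v, huv, rfl, rfl⟩ | ⟨u, v, huv, rfl, rfl⟩)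
          · exact Or.inl ⟨s(u, v), huv, rfl⟩
          · exact Or.inr ⟨s(u, v), huv, rfl⟩
        · rintro (⟨e, he, h⟩ | ⟨e, he, h⟩)
          · left
            induction e using Sym2.ind with
            | _ u v =>
              rw [Sym2.map_mk] at h
              rcases Sym2.eq_iff.1 h with ⟨h1, h2⟩ | ⟨h1, h2⟩
              · exact ⟨u, v, he, h1, h2⟩
              · exact ⟨v, u, (SimpleGraph.mem_edgeSet _).1 he |>.symm, h2, h1⟩
          · right
            induction e using Sym2.ind with
            | _ u v =>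
              rw [Sym2.map_mk] at h
              rcases Sym2.eq_iff.1 h with ⟨h1, h2⟩ | ⟨h1, h2⟩
              · exact ⟨u, v, he, h1, h2⟩
              · exact ⟨v, u, (SimpleGraph.mem_edgeSet _).1 he |>.symm, h2, h1⟩
    have e5 : (H.induce S).edgeFinset.image (Sym2.map fS) =
        G₁.edgeFinset.image (Sym2.map p) ∩ H.edgeFinset.image (Sym2.map f) := by
      ext e
      rw [mem_inter, mem_image, mem_image, mem_image]
      simp only [SimpleGraph.mem_edgeFinset]
      constructor
      · rintro ⟨e, he, rfl⟩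
        induction e using Sym2.ind with
        | _ u v =>
          have huv : H.Adj u v := he
          refine ⟨⟨s(σ u, σ v), hedge u v huv, ?_⟩, s((u : V₀), (v : V₀)), huv, rfl⟩
          rw [Sym2.map_mk, Sym2.map_mk, hσ, hσ]
          rfl
      · rintro ⟨⟨e₁, he₁, h₁⟩, e₂, he₂, h₂⟩
        induction e₂ using Sym2.ind with
        | _ u v =>
          have hend : ∀ x ∈ s(u, v), x ∈ S := by
            intro x hx
            by_contra hxS
            have h3 : f x ∈ Sym2.map f s(u, v) := Sym2.mem_map.2 ⟨x, hx, rfl⟩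
            rw [h₂, ← h₁] at h3
            obtain ⟨a, -, ha⟩ := Sym2.mem_map.1 h3
            exact hnew x hxS a ha
          have hu := hend u (Sym2.mem_mk_left u v)
          have hv := hend v (Sym2.mem_mk_right u v)
          refine ⟨s(⟨u, hu⟩, ⟨v, hv⟩), he₂, ?_⟩
          rw [← h₂]
          rfl
    rw [e1, e2, e3, e5]
    have e6 : ∏ e ∈ (G₁.map p ⊔ H.map f).edgeFinset, (1 + U (e.map z)) =
        ∏ e ∈ G₁.edgeFinset.image (Sym2.map p) ∪ H.edgeFinset.image (Sym2.map f),
          (1 + U (e.map z)) := by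
      rw [← e4]
    rw [e6, prod_union_inter]
  have key : ∀ a b c d a' b' c' d' : ℝ, a * c = a' * c' → b * d = b' * d' →
      (a * b) * (c * d) = (a' * b') * (c' * d') := by
    intro a b c d a' b' c' d' h1 h2
    calc (a * b) * (c * d) = (a * c) * (b * d) := by ring
      _ = (a' * c') * (b' * d') := by rw [h1, h2]
      _ = _ := by ring
  refine Eq.trans ?_ ((key _ _ _ _ _ _ _ _ ev ee).trans ?_)
  · refine congrArg₂ (· * ·) (congrArg₂ (· * ·) rfl (prod_congr ?_ fun _ _ => rfl))
      (congrArg₂ (· * ·) rfl (prod_congr ?_ fun _ _ => rfl)) <;>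
    · ext e
      simp only [SimpleGraph.mem_edgeFinset]
  · refine congrArg₂ (· * ·) (congrArg₂ (· * ·) rfl (prod_congr ?_ fun _ _ => rfl))
      (congrArg₂ (· * ·) rfl (prod_congr ?_ fun _ _ => rfl)) <;>
    · ext e
      simp only [SimpleGraph.mem_edgeFinset]

end Vale.Agent.P050.Opt
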