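import Vale.Agent.P050.O.H322.Kpow

set_option linter.all false

/-!
The edges of a subdivision.
-/

open Finset

namespace Vale.Agent.P050.Opt

open Vale.Agent.P050 Vale.Agent.P050.Dense

namespace H128Sub

section

variable {V : Type} (F : SimpleGraph V) {ℓ : ℕ}

theorem node_mid (e : F.edgeSet) {i : ℕ} (h0 : 0 < i) (h1 : i < ℓ) :
    node F ℓ e i = Sum.inr (e, ⟨i - 1, by omega⟩) := by
  unfold node
  rw [dif_pos ⟨h0, h1⟩]

theorem node_zero (e : F.edgeSet) : node F ℓ e 0 = Sum.inl (Quot.out e.1).1 := by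
  unfold node
  rw [dif_neg (by omega), if_pos rfl]

theorem node_end (e : F.edgeSet) {i : ℕ} (h0 : i ≠ 0) (h1 : ℓ ≤ i) :
    node F ℓ e i = Sum.inl (Quot.out e.1).2 := by
  unfold node
  rw [dif_neg (by omega), if_neg h0]

theorem out_eq (e : F.edgeSet) : s((Quot.out e.1).1, (Quot.out e.1).2) = e.1 :=
  Quot.out_eq e.1

theorem out_adj (e : F.edgeSet) : F.Adj (Quot.out e.1).1 (Quot.out e.1).2 := by
  rw [← SimpleGraph.mem_edgeSet, out_eq]
  exact e.2

theorem node_inj {e e' : F.edgeSet} {i j : ℕ} (h0 : 0 < i) (h1 : i < ℓ)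
    (h : node F ℓ e i = node F ℓ e' j) : e = e' ∧ i = j := by
  rw [node_mid F e h0 h1] at h
  by_cases hj : 0 < j ∧ j < ℓ
  · rw [node_mid F e' hj.1 hj.2] at h
    have h2 := Sum.inr.inj h
    simp only [Prod.mk.injEq, Fin.mk.injEq] at h2
    exact ⟨h2.1, by omega⟩
  · exfalso
    rcases Nat.eq_zero_or_pos j with h2 | h2
    · subst h2
      rw [node_zero] at h
      exact absurd h (by simp)
    · rw [node_end F e' (by omega) (by omega)] at h
      exact absurd h (by simp)

theorem node_zero_ne (e : F.edgeSet) (hℓ : 1 ≤ ℓ) {i : ℕ} (hi : i ≠ 0) :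
    node F ℓ e 0 ≠ node F ℓ e i := by
  intro h
  by_cases h1 : i < ℓ
  · have := (node_inj F (Nat.pos_of_ne_zero hi) h1 h.symm).2
    exact hi this
  · rw [node_zero, node_end F e hi (by omega)] at h
    exact (out_adj F e).ne (Sum.inl.inj h)

theorem node_ne (e : F.edgeSet) {i j : ℕ} (hij : i < j) (hi : i < ℓ) :
    node F ℓ e i ≠ node F ℓ e j := by
  rcases Nat.eq_zero_or_pos i with h | h
  · subst h
    exact node_zero_ne F e (by omega) (by omega)
  · intro h2
    have := (node_inj F h hi h2).2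
    omega

theorem edge_inj {e e' : F.edgeSet} {i j : ℕ} (hi : i < ℓ) (hj : j < ℓ)
    (h : s(node F ℓ e i, node F ℓ e (i + 1)) = s(node F ℓ e' j, node F ℓ e' (j + 1))) :
    e = e' ∧ i = j := by
  by_cases hℓ : ℓ = 1
  · have hi0 : i = 0 := by omega
    have hj0 : j = 0 := by omega
    subst hi0 hj0
    refine ⟨?_, rfl⟩
    rw [node_zero, node_zero, node_end F e (by omega) (by omega),
      node_end F e' (by omega) (by omega)] at h
    have h1 : s((Quot.out e.1).1, (Quot.out e.1).2) = s((Quot.out e'.1).1, (Quot.out e'.1).2) := by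
      rcases Sym2.eq_iff.1 h with h2 | h2
      · rw [Sum.inl.inj h2.1, Sum.inl.inj h2.2]
      · rw [Sum.inl.inj h2.1, Sum.inl.inj h2.2, Sym2.eq_swap]
    rw [out_eq, out_eq] at h1
    exact Subtype.ext h1
  · have hℓ2 : 2 ≤ ℓ := by omega
    rcases Sym2.eq_iff.1 h with ⟨h1, h2⟩ | ⟨h1, h2⟩
    · rcases Nat.eq_zero_or_pos i with hi0 | hi0
      · have h3 := node_inj F (by omega) (by omega) h2
        exact ⟨h3.1, by omega⟩
      · exact node_inj F hi0 hi h1
    · exfalso
      rcases Nat.eq_zero_or_pos i with hi0 | hi0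
      · obtain ⟨h3, h4⟩ := node_inj F (by omega) (by omega) h2
        subst h3
        refine node_ne F e (i := i) (j := j + 1) (by omega) hi h1
      · obtain ⟨h3, h4⟩ := node_inj F hi0 hi h1
        subst h3
        exact node_ne F e (i := j) (j := i + 1) (by omega) hj h2.symm

end

end H128Sub

/-- the edges of a subdivision -/
theorem H128Sub.prod_subdiv {V X : Type} [Fintype V] [DecidableEq V] (F : SimpleGraph V)
    [DecidableRel F.Adj] {ℓ : ℕ} (hℓ : 1 ≤ ℓ)
    [Fintype (V ⊕ (F.edgeSet × Fin (ℓ - 1)))] [DecidableEq (V ⊕ (F.edgeSet × Fin (ℓ - 1)))]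
    [DecidableRel (subdiv ℓ F).Adj] (W : X → X → ℝ) (hs : ∀ x y, W x y = W y x)
    (z : V ⊕ (F.edgeSet × Fin (ℓ - 1)) → X) :
    ∏ e ∈ (subdiv ℓ F).edgeFinset, ev W hs z e =
      ∏ e : F.edgeSet, ∏ i ∈ Finset.range ℓ, W (z (node F ℓ e i)) (z (node F ℓ e (i + 1))) := by
  rw [← Finset.prod_product' (univ : Finset F.edgeSet) (range ℓ)
    (fun e i => W (z (node F ℓ e i)) (z (node F ℓ e (i + 1))))]
  symm
  refine Finset.prod_bij (fun p _ => s(node F ℓ p.1 p.2, node F ℓ p.1 (p.2 + 1))) ?_ ?_ ?_ ?_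
  · intro p hp
    have hi : p.2 < ℓ := Finset.mem_range.1 (Finset.mem_product.1 hp).2
    rw [SimpleGraph.mem_edgeFinset, SimpleGraph.mem_edgeSet]
    unfold subdiv
    rw [SimpleGraph.fromRel_adj]
    exact ⟨H128Sub.node_ne F p.1 (Nat.lt_succ_self _) hi, Or.inl ⟨p.1, p.2, hi, rfl, rfl⟩⟩
  · intro p hp p' hp' h
    have hi : p.2 < ℓ := Finset.mem_range.1 (Finset.mem_product.1 hp).2
    have hi' : p'.2 < ℓ := Finset.mem_range.1 (Finset.mem_product.1 hp').2
    obtain ⟨h1, h2⟩ := H128Sub.edge_inj F hi hi' h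
    exact Prod.ext h1 h2
  · intro e he
    rw [SimpleGraph.mem_edgeFinset] at he
    induction e using Sym2.ind with
    | _ x y =>
      rw [SimpleGraph.mem_edgeSet] at he
      unfold subdiv at he
      rw [SimpleGraph.fromRel_adj] at he
      rcases he.2 with ⟨e, i, hi, h1, h2⟩ | ⟨e, i, hi, h1, h2⟩
      · exact ⟨(e, i), Finset.mem_product.2 ⟨Finset.mem_univ _, Finset.mem_range.2 hi⟩, by
          rw [h1, h2]⟩
      · exact ⟨(e, i), Finset.mem_product.2 ⟨Finset.mem_univ _, Finset.mem_range.2 hi⟩, by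
          rw [h1, h2, Sym2.eq_swap]⟩
  · intro p hp
    rfl

end Vale.Agent.P050.Opt
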