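import Vale.Agent.P050.O.H300.StarDefs
import Vale.Agent.P050.O.H234.RedEq

set_option linter.all false

/-!
Dense targets, graphs glued at single vertices: from the weighted inequality to the densities of
kernels with large rows.  No condition on the degrees of `H` is used here.
-/

open MeasureTheory Finset

namespace Vale.Agent.P050.Opt

open Vale.Agent.P050 Vale.Agent.P050.Dense Vale.Agent.P050.R2.H111

theorem H128.log_nonneg {Ω : Type*} [MeasurableSpace Ω] [Fintype Ω] [MeasurableSingletonClass Ω]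
    (μ : Measure Ω) [IsProbabilityMeasure μ] {r : Ω → ℝ} (hr : ∀ s, 0 < r s)
    (h1 : ∫ s, (r s)⁻¹ ∂μ = 1) : 0 ≤ ∫ s, Real.log (r s) ∂μ := by
  have h2 : ∫ s, (1 - (r s)⁻¹) ∂μ ≤ ∫ s, Real.log (r s) ∂μ := by
    refine integral_mono Integrable.of_finite Integrable.of_finite fun s => ?_
    have h3 := Real.log_le_sub_one_of_pos (inv_pos.2 (hr s))
    rw [Real.log_inv] at h3
    show 1 - (r s)⁻¹ ≤ Real.log (r s)
    linarith
  rw [integral_sub Integrable.of_finite Integrable.of_finite, h1] at h2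
  simpa using h2

/-- the weighted inequality gives the density, for kernels with large rows -/
theorem rows_glued_of {V X : Type} [Fintype V] [DecidableEq V] [Fintype X] [DecidableEq X]
    [Nonempty X] (H : SimpleGraph V) [DecidableRel H.Adj] {D : ℕ} (hD1 : 1 ≤ D) {θ : ℝ}
    (hθ0 : 0 < θ) (hθ : 10 ^ 13 * (D:ℝ) * θ ≤ 1)
    (W : X → X → ℝ) (hs : ∀ x y, W x y = W y x) (h0 : ∀ x y, 0 ≤ W x y)
    (h1 : ∀ x y, W x y ≤ 1) (hmin : ∀ x, (1 - θ) * Fintype.card X ≤ ∑ y, W x y)
    (hstar : ∀ (m : MeasurableSpace X) (_ : MeasurableSingletonClass X) (μ : Measure X)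
      [IsProbabilityMeasure μ] (U : Sym2 X → ℝ) (κ η : ℝ), Ker μ U κ η → (1 + η) ^ D ≤ 2 →
      10 ^ 12 * (D:ℝ) * κ ≤ 1 → Star H μ U) :
    pden W ^ H.edgeFinset.card ≤ tden H W hs := by
  classical
  have hD1' : (1:ℝ) ≤ D := by exact_mod_cast hD1
  have hθ' : θ ≤ 1 / 100 := by nlinarith
  have hη : (1 + 3 * θ) ^ D ≤ 2 := by
    have h3 : (1 + 3 * θ) ^ D ≤ Real.exp (3 * θ) ^ D := by
      refine pow_le_pow_left₀ (by positivity) ?_ D
      have := Real.add_one_le_exp (3 * θ)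
      linarith
    rw [← Real.exp_nat_mul] at h3
    have h4 : (D:ℝ) * (3 * θ) ≤ Real.log 2 := by
      have := Real.log_two_gt_d9
      nlinarith
    have h5 : Real.exp ((D:ℝ) * (3 * θ)) ≤ 2 := by
      have := Real.exp_le_exp.2 h4
      rwa [Real.exp_log (by norm_num)] at this
    exact h3.trans h5
  letI m : MeasurableSpace X := ⊤
  haveI hm : MeasurableSingletonClass X := ⟨fun _ => trivial⟩
  obtain ⟨μ, U, r, hμ, hU, hr, hr2, hr1, ht, -, -⟩ :=
    Red3.redEq_aux W hs h0 h1 H hθ0 hθ' hmin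
  have hr0 : ∀ s, 0 < r s := by
    intro s
    have := (abs_le.1 (hr2 s)).1
    linarith
  have hκ : 10 ^ 12 * (D:ℝ) * (5 * θ) ≤ 1 := by nlinarith
  obtain ⟨hZ, hlog⟩ := hstar m hm μ U (5 * θ) (3 * θ) hU hη hκ (fun v s => r s ^ (H.degree v - 1))
    (fun v s => pow_pos (hr0 s) _)
  have h3 : 0 ≤ ∑ v : V, ∫ s, Real.log (r s ^ (H.degree v - 1)) ∂μ := by
    refine sum_nonneg fun v _ => ?_
    simp_rw [Real.log_pow]
    rw [integral_const_mul]
    exact mul_nonneg (Nat.cast_nonneg _) (H128.log_nonneg μ hr0 hr1)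
  have h4 := Real.exp_le_exp.2 (h3.trans hlog)
  rw [Real.exp_zero, Real.exp_log hZ] at h4
  have hp : 0 ≤ pden W ^ H.edgeFinset.card := by
    refine pow_nonneg ?_ _
    unfold pden
    exact div_nonneg (sum_nonneg fun x _ => sum_nonneg fun y _ => h0 x y) (by positivity)
  rw [ht]
  refine le_mul_of_one_le_right hp ?_
  refine h4.trans (le_of_eq ?_)
  unfold Zk
  refine integral_congr_ae (Filter.Eventually.of_forall fun z => ?_)
  refine congrArg₂ (· * ·) rfl (prod_congr ?_ fun _ _ => rfl)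
  ext e
  simp only [SimpleGraph.mem_edgeFinset]

end Vale.Agent.P050.Opt
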