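import Vale.Agent.P050.O.H128.Explore
import Vale.Agent.P050.O.H928.Step

set_option linter.all false

/-!
Dense targets, optimal order: the exploration (S2).
-/

open MeasureTheory Finset

namespace Vale.Agent.P050.Opt

open Vale.Agent.P050 Vale.Agent.P050.Dense

variable {V : Type*} [Fintype V] [DecidableEq V] {Ω : Type*} [MeasurableSpace Ω]
variable (H : SimpleGraph V) [DecidableRel H.Adj] (o : V → ℕ)
variable (μ : Measure Ω) [IsProbabilityMeasure μ] {U : Sym2 Ω → ℝ} {R : V → Ω → ℝ} {κ η : ℝ}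

theorem explore (ho : Function.Injective o) (hU : Ker μ U κ η) (hR : One μ R) {X Λ : Finset V}
    {O : V → Finset V} {s a : V} {g : (V → Ω) → ℝ} (hg : BM g) (hgX : ∀ w ∉ X, Ind w g)
    (hs : s ∈ X) (haX : a ∉ X) (haΛ : a ∉ Λ) (hX : Disjoint X Λ) :
    IT H μ U R (fun z => g z * U s(z s, z a)) X O (insert a Λ) =
      ∑ j ∈ range (Fintype.card V), ∑ L ∈ Wk H a Λ j,
        ∑ q ∈ Cq (X ∪ pv a L) (kO H o O a L) (hd a L),
          IT H μ U R (fun z => g z * U s(z s, z a) * pU U a L z * cl U R (hd a L) q.1 q.2 z)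
            (X ∪ vs a L) (Function.update (kO H o O a L) (hd a L) (H.neighborFinset (hd a L)))
            (Λ \ vs a L) :=
  H128.explore_of H o μ
    (fun X Λ O u p g hg hgu hgX hp huX huΛ hX => step H o μ ho hU hR hg hgu hgX hp huX huΛ hX)
    hU hg hgX hs haX haΛ hX

end Vale.Agent.P050.Opt
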