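import Vale.Agent.P050.O.H128.SmallWalks
import Mathlib.Analysis.SpecialFunctions.Pow.Real
import Mathlib.Combinatorics.SimpleGraph.Walk.Counting

set_option linter.all false

/-!
Small graphs satisfy the walk condition.
-/

namespace Vale.Agent.P050.Opt.H128W

/-- a graph with at most `n` vertices satisfies the walk condition with `j = n` and
`ε = 1 / n ^ (2 * n - 1)` -/
theorem small_cond {X : Type} [Finite X] (G : SimpleGraph X) {n : ℕ} (hn : Nat.card X ≤ n)
    (hn1 : 1 ≤ n) (x y : X) (h : ∃ q : G.Walk x y, Even q.length ∧ q.length ≠ 0) :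
    (1 / (n : ℝ) ^ (2 * n - 1)) * (Nat.card X : ℝ) ^ (2 * n - 1) ≤
      Nat.card {q : G.Walk x y // q.length = 2 * n} := by
  classical
  have := Fintype.ofFinite X
  obtain ⟨q, hq⟩ := small_walks G hn x y h
  have hfin : Finite {q : G.Walk x y // q.length = 2 * n} := inferInstance
  have h1 : (1:ℝ) ≤ Nat.card {q : G.Walk x y // q.length = 2 * n} := by
    have : 0 < Nat.card {q : G.Walk x y // q.length = 2 * n} :=
      Nat.card_pos_iff.2 ⟨⟨⟨q, hq⟩⟩, hfin⟩
    exact_mod_cast this
  refine le_trans ?_ h1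
  have hn0 : (0:ℝ) < (n : ℝ) ^ (2 * n - 1) := pow_pos (by exact_mod_cast hn1) _
  rw [one_div, inv_mul_le_iff₀ hn0, mul_one]
  exact pow_le_pow_left₀ (by positivity) (by exact_mod_cast hn) _

end Vale.Agent.P050.Opt.H128W
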