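import Mathlib.Combinatorics.SimpleGraph.Walk.Operations
import Mathlib.Tactic.Ring
import Mathlib.Data.Set.Card
import Mathlib.Order.Monotone.Basic

set_option linter.all false

/-!
Even walks in small graphs.
-/

namespace Vale.Agent.P050.Opt.H128W

/-- if `x` and `y` are joined by a walk of positive even length in a graph with at most `n`
vertices, then they are joined by a walk of length exactly `2 * n` -/
theorem small_walks {X : Type} [Finite X] (G : SimpleGraph X) {n : ℕ} (hn : Nat.card X ≤ n)
    (x y : X) (h : ∃ q : G.Walk x y, Even q.length ∧ q.length ≠ 0) :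
    ∃ q : G.Walk x y, q.length = 2 * n := by
  classical
  obtain ⟨q, he, h0⟩ := h
  obtain ⟨z, hz⟩ : ∃ z, G.Adj x z := by
    cases q with
    | nil => exact absurd rfl h0
    | cons h p => exact ⟨_, h⟩
  set S : ℕ → Set X := fun k => {w | ∃ p : G.Walk x w, p.length = 2 * k} with hS
  have hmono : ∀ k, S k ⊆ S (k + 1) := by
    rintro k w ⟨p, hp⟩
    refine ⟨SimpleGraph.Walk.cons hz (SimpleGraph.Walk.cons hz.symm p), ?_⟩
    simp only [SimpleGraph.Walk.length_cons, hp]
    ring
  have hMono : Monotone S := monotone_nat_of_le_succ hmono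
  have hfin : ∀ k, (S k).Finite := fun k => Set.toFinite _
  have hstep : ∀ k w, w ∈ S (k + 1) ↔ ∃ a ∈ S k, ∃ b, G.Adj a b ∧ G.Adj b w := by
    intro k w
    constructor
    · rintro ⟨p, hp⟩
      have hp' : p.reverse.length = 2 * (k + 1) := by
        rw [SimpleGraph.Walk.length_reverse, hp]
      generalize p.reverse = r at hp'
      match r, hp' with
      | .cons h1 (.cons h2 t), hp' =>
        refine ⟨_, ⟨t.reverse, ?_⟩, _, h2.symm, h1.symm⟩
        simp only [SimpleGraph.Walk.length_cons] at hp'
        rw [SimpleGraph.Walk.length_reverse]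
        omega
    · rintro ⟨a, ⟨p, hp⟩, b, hab, hbw⟩
      refine ⟨(p.append (SimpleGraph.Walk.cons hab (SimpleGraph.Walk.cons hbw .nil))), ?_⟩
      simp only [SimpleGraph.Walk.length_append, SimpleGraph.Walk.length_cons,
        SimpleGraph.Walk.length_nil, hp]
      ring
  have hstab : ∀ m, (S m).ncard = (S (m + 1)).ncard → (S (m + 1)).ncard = (S (m + 2)).ncard := by
    intro m hm
    have h1 : S m = S (m + 1) := Set.eq_of_subset_of_ncard_le (hmono m) hm.ge (hfin _)
    have h2 : S (m + 1) = S (m + 2) := by
      ext w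
      rw [hstep (m + 1) w, hstep m w, ← h1]
    rw [← h2]
  obtain ⟨k, hk⟩ := he
  have hy : y ∈ S k := ⟨q, by rw [hk]; ring⟩
  have hcard : ∀ m, (S m).ncard ≤ Nat.card X := fun m => by
    rw [← Set.ncard_univ]
    exact Set.ncard_le_ncard (Set.subset_univ _) (Set.toFinite _)
  have hst : ∀ m, Nat.card X ≤ m → (S m).ncard = (S (Nat.card X)).ncard := fun m hm =>
    Nat.stabilises_of_monotone (f := fun m => (S m).ncard)
      (fun a b hab => Set.ncard_le_ncard (hMono hab) (hfin _)) hcard hstab hm
  have hmem : y ∈ S (max k n) := hMono (le_max_left _ _) hy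
  have heq : S n = S (max k n) := by
    refine Set.eq_of_subset_of_ncard_le (hMono (le_max_right _ _)) ?_ (hfin _)
    rw [hst n hn, hst _ (le_trans hn (le_max_right _ _))]
  rw [← heq] at hmem
  exact hmem

end Vale.Agent.P050.Opt.H128W
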