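import Vale.Agent.P050.O.H128.Surplus
import Vale.Agent.P050.O.H904.SumLe2

set_option linter.all false

/-!
Dense targets, optimal order, phase 4: the main inequality with surplus.
-/

open MeasureTheory Finset

namespace Vale.Agent.P050.Opt

open Vale.Agent.P050 Vale.Agent.P050.Dense

variable {V : Type*} [Fintype V] [DecidableEq V] {Ω : Type*} [MeasurableSpace Ω]
variable (H : SimpleGraph V) [DecidableRel H.Adj] (o : V → ℕ)
variable (μ : Measure Ω) [IsProbabilityMeasure μ] {U : Sym2 Ω → ℝ} {R : V → Ω → ℝ} {κ η : ℝ}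

/-- the main inequality with surplus, strong form -/
theorem main_log_surplus' {D : ℕ} (ho : Function.Injective o) (hH : H.IsBipartite)
    (hD : ∀ v, H.degree v ≤ D) (hU : Ker μ U κ η) (hη : (1 + η) ^ D ≤ 2) (hR : One μ R)
    (hκ : 10 ^ 12 * D * κ ≤ 1) :
    -(1 / 32 * ∑ v, rr μ R v) +
      7 / 16 * ∑ k ∈ range (Fintype.card V), ((Cyc H o k).card : ℝ) * ((1 / 2) ^ k * ck μ U k) ≤
      Real.log (ZE H μ U R univ) := by
  have hκ0 := hU.κ0
  have hDκ : (0 : ℝ) ≤ D * κ := by positivity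
  have h24 : 24 * D * κ ≤ 1 := by nlinarith
  have hT := tb H μ hH hU hR
  have hT0 : ∀ q : Sh V, 0 ≤ TT3 μ U R κ q.1 q.2.1 q.2.2.1 q.2.2.2.1 q.2.2.2.2 :=
    fun q => TT3_nonneg μ hκ0 _ _ _ _ _
  have h1 := log_ge H o μ ho hH hD hU hη hR h24 hT0 hT
  have h2 := sum_le8 H μ o ho hH hD hU hR hκ
  linarith

/-- the main inequality with surplus -/
theorem main_log_surplus {D : ℕ} (ho : Function.Injective o) (hH : H.IsBipartite)
    (hD : ∀ v, H.degree v ≤ D) (hU : Ker μ U κ η) (hη : (1 + η) ^ D ≤ 2) (hR : One μ R)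
    (hκ : 10 ^ 12 * D * κ ≤ 1) :
    -(1 / 8 * ∑ v, rr μ R v) +
      1 / 4 * ∑ k ∈ range (Fintype.card V), ((Cyc H o k).card : ℝ) * ((1 / 2) ^ k * ck μ U k) ≤
      Real.log (ZE H μ U R univ) := by
  have hκ0 := hU.κ0
  have hDκ : (0 : ℝ) ≤ D * κ := by positivity
  have h24 : 24 * D * κ ≤ 1 := by nlinarith
  exact main_log_surplus_of H o μ ho hH hD hU hη hR h24 (sum_le_surplus H μ o ho hH hD hU hR hκ)

/-- the same, without cycles, in the form used in the reductions -/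
theorem main_log_surplus_nonneg :
    0 ≤ ∑ k ∈ range (Fintype.card V), ((Cyc H o k).card : ℝ) * ((1 / 2) ^ k * ck μ U k) :=
  sum_nonneg fun k _ => mul_nonneg (Nat.cast_nonneg _)
    (mul_nonneg (by positivity) (ck_nonneg μ (U := U) k))

end Vale.Agent.P050.Opt
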