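import Vale.Agent.P050.O.H128.TreeCore
import Vale.Agent.P050.O.H128.Copies
import Vale.Agent.P050.O.H625.Forest
import Vale.Agent.P050.O.H300.AsmDefs

set_option linter.all false

/-!
Dense targets, assembled graphs: copies of a graph joined one after the other.
-/

open MeasureTheory Finset

namespace Vale.Agent.P050.Opt

open Vale.Agent.P050 Vale.Agent.P050.Dense

section sums

variable {V₁ V₀ V Ω : Type*}

/-- the vertices of the old part and the new vertices -/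
noncomputable def H128.glEquiv (p : V₁ ↪ V) (f : V₀ ↪ V) (S : Set V₀) (σ : S → V₁)
    (hσ : ∀ u : S, p (σ u) = f u) (hnew : ∀ u, u ∉ S → ∀ x, p x ≠ f u)
    (hc : ∀ x, (∃ a, p a = x) ∨ ∃ b, f b = x) : V₁ ⊕ (Sᶜ : Set V₀) ≃ V :=
  Equiv.ofBijective (Sum.elim p (fun u => f u)) (by
    constructor
    · rintro (a | u) (b | v) h
      · exact congrArg Sum.inl (p.injective h)
      · exact absurd h (hnew v v.2 a)
      · exact absurd h.symm (hnew u u.2 b)
      · exact congrArg Sum.inr (Subtype.ext (f.injective h))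
    · intro x
      rcases hc x with ⟨a, h⟩ | ⟨b, h⟩
      · exact ⟨Sum.inl a, h⟩
      · by_cases hb : b ∈ S
        · exact ⟨Sum.inl (σ ⟨b, hb⟩), (hσ ⟨b, hb⟩).trans h⟩
        · exact ⟨Sum.inr ⟨b, hb⟩, h⟩)

/-- the configurations of the old part and of the new vertices -/
noncomputable def H128.gcEquiv (p : V₁ ↪ V) (f : V₀ ↪ V) (S : Set V₀) (σ : S → V₁)
    (hσ : ∀ u : S, p (σ u) = f u) (hnew : ∀ u, u ∉ S → ∀ x, p x ≠ f u)
    (hc : ∀ x, (∃ a, p a = x) ∨ ∃ b, f b = x) :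
    (V₁ → Ω) × ((Sᶜ : Set V₀) → Ω) ≃ (V → Ω) where
  toFun z := fun v => Sum.elim z.1 z.2 ((H128.glEquiv p f S σ hσ hnew hc).symm v)
  invFun z := (fun a => z (p a), fun u => z (f u))
  left_inv z := by
    refine Prod.ext (funext fun a => ?_) (funext fun u => ?_)
    · show Sum.elim z.1 z.2 ((H128.glEquiv p f S σ hσ hnew hc).symm (p a)) = z.1 a
      have : p a = H128.glEquiv p f S σ hσ hnew hc (Sum.inl a) := rfl
      rw [this, Equiv.symm_apply_apply]
      rfl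
    · show Sum.elim z.1 z.2 ((H128.glEquiv p f S σ hσ hnew hc).symm (f u)) = z.2 u
      have : f u = H128.glEquiv p f S σ hσ hnew hc (Sum.inr u) := rfl
      rw [this, Equiv.symm_apply_apply]
      rfl
  right_inv z := by
    ext v
    obtain ⟨a, rfl⟩ := (H128.glEquiv p f S σ hσ hnew hc).surjective v
    show Sum.elim _ _ ((H128.glEquiv p f S σ hσ hnew hc).symm _) = _
    rw [Equiv.symm_apply_apply]
    rcases a with a | u
    · rfl
    · rfl

theorem H128.sum_glueS [Fintype V] [DecidableEq V] [Fintype Ω] (p : V₁ ↪ V) (f : V₀ ↪ V)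
    (S : Set V₀) [Fintype (V₁ → Ω)]
    [Fintype ((Sᶜ : Set V₀) → Ω)] (σ : S → V₁)
    (hσ : ∀ u : S, p (σ u) = f u) (hnew : ∀ u, u ∉ S → ∀ x, p x ≠ f u)
    (hc : ∀ x, (∃ a, p a = x) ∨ ∃ b, f b = x) (F : (V₁ → Ω) → (V₀ → Ω) → ℝ) :
    ∑ z : V → Ω, F (z ∘ p) (z ∘ f) =
      ∑ z₁ : V₁ → Ω, ∑ x : (Sᶜ : Set V₀) → Ω, F z₁ (H234.jn S (fun u => z₁ (σ u)) x) := by
  rw [← Fintype.sum_prod_type', ← (H128.gcEquiv p f S σ hσ hnew hc).sum_comp]
  refine sum_congr rfl fun z _ => ?_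
  have e1 : (H128.gcEquiv p f S σ hσ hnew hc z) ∘ p = z.1 :=
    congrArg Prod.fst ((H128.gcEquiv p f S σ hσ hnew hc).symm_apply_apply z)
  have e0 : ∀ u : (Sᶜ : Set V₀), (H128.gcEquiv p f S σ hσ hnew hc z) (f u) = z.2 u := fun u =>
    congrFun (congrArg Prod.snd ((H128.gcEquiv p f S σ hσ hnew hc).symm_apply_apply z)) u
  have e2 : (H128.gcEquiv p f S σ hσ hnew hc z) ∘ f = H234.jn S (fun u => z.1 (σ u)) z.2 := by
    funext u
    by_cases hu : u ∈ S
    · rw [H234.jn_mem hu]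
      show (H128.gcEquiv p f S σ hσ hnew hc z) (f u) = _
      rw [← hσ ⟨u, hu⟩]
      exact congrFun e1 (σ ⟨u, hu⟩)
    · rw [H234.jn_notMem hu]
      exact e0 ⟨u, hu⟩
  rw [e1, e2]

end sums

/-- the weight of the glued graph (module of helper15) -/
def H128.GlueW : Prop := ∀ {V₁ V₀ V Ω : Type} [Fintype V₁] [Fintype V₀] [Fintype V]
  (G₁ : SimpleGraph V₁) (H : SimpleGraph V₀) (p : V₁ ↪ V) (f : V₀ ↪ V) (S : Set V₀) [Fintype S]
  (σ : S → V₁) (_ : ∀ u : S, p (σ u) = f u) (_ : ∀ u, u ∉ S → ∀ x, p x ≠ f u)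
  (_ : ∀ x, (∃ a, p a = x) ∨ ∃ b, f b = x) (_ : ∀ u v : S, H.Adj u v → G₁.Adj (σ u) (σ v))
  (w : Ω → ℝ) (U : Sym2 Ω → ℝ) (z : V → Ω),
  mH (G₁.map p ⊔ H.map f) w U z * mH (H.induce S) w U (fun u : S => z (f u)) =
    mH G₁ w U (z ∘ p) * mH H w U (z ∘ f)

/-- the copies of a law, one after the other -/
theorem H128.tree_law (hglue : H128.GlueW) {V₀ Ω : Type} [Fintype V₀] [DecidableEq V₀]
    [Fintype Ω] [DecidableEq Ω] (H : SimpleGraph V₀) {w : Ω → ℝ} {U : Sym2 Ω → ℝ} (hw : Wt w U)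
    {g : (V₀ → Ω) → ℝ} (hg : ∀ z, 0 ≤ g z) (hg1 : ∑ z, g z = 1)
    (hg0 : ∀ z, mH H w U z = 0 → g z = 0)
    (hkl : ∑ z, g z * Real.log (g z / mH H w U z) ≤ 0) :
    ∀ (n : ℕ) (V : Type) [Fintype V] [DecidableEq V] (f : Fin n → V₀ ↪ V),
      (∀ i, ∃ S : Set V₀, (H.induce S).IsAcyclic ∧
        (S = ∅ ∨ ∃ j < i, ∀ u ∈ S, f i u = f j u) ∧ ∀ u ∉ S, ∀ l < i, ∀ v, f l v ≠ f i u) →
      (∀ x, ∃ i u, f i u = x) →
      ∃ G : (V → Ω) → ℝ, (∀ z, 0 ≤ G z) ∧ ∑ z, G z = 1 ∧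
        (∀ i (φ : (V₀ → Ω) → ℝ), ∑ z, G z * φ (z ∘ f i) = ∑ z, g z * φ z) ∧
        (∀ z, mH (⨆ i, H.map (f i)) w U z = 0 → G z = 0) ∧
        ∑ z, G z * Real.log (G z / mH (⨆ i, H.map (f i)) w U z) ≤ 0 := by
  classical
  intro n
  induction n with
  | zero =>
    intro V _ _ f _ h3
    haveI hV : IsEmpty V := ⟨fun x => by
      obtain ⟨i, -⟩ := h3 x
      exact i.elim0⟩
    have hm : ∀ z : V → Ω, mH (⨆ i, H.map (f i)) w U z = 1 := by
      intro z
      unfold mH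
      rw [univ_eq_empty, prod_empty, one_mul]
      refine prod_eq_one fun e _ => ?_
      induction e using Sym2.ind with
      | _ a b => exact hV.elim a
    refine ⟨fun _ => 1, fun _ => zero_le_one, by simp, fun i => i.elim0, fun z hz => ?_, ?_⟩
    · rw [hm] at hz
      exact absurd hz one_ne_zero
    · simp [hm]
  | succ n ih =>
    intro V _ _ f h1 h3
    -- the old part
    let V₁ : Type := {x : V // ∃ l : Fin n, ∃ v, f l.castSucc v = x}
    let f' : Fin n → V₀ ↪ V₁ := fun l =>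
      ⟨fun v => ⟨f l.castSucc v, l, v, rfl⟩, fun a b h =>
        (f l.castSucc).injective (congrArg Subtype.val h)⟩
    let p : V₁ ↪ V := Function.Embedding.subtype _
    have hpf : ∀ l v, p (f' l v) = f l.castSucc v := fun l v => rfl
    have h1' : ∀ i, ∃ S : Set V₀, (H.induce S).IsAcyclic ∧
        (S = ∅ ∨ ∃ j < i, ∀ u ∈ S, f' i u = f' j u) ∧ ∀ u ∉ S, ∀ l < i, ∀ v, f' l v ≠ f' i u := by
      intro i
      obtain ⟨S, hS, hS2, hS3⟩ := h1 i.castSucc
      refine ⟨S, hS, ?_, ?_⟩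
      · rcases hS2 with h | ⟨j, hj, h⟩
        · exact Or.inl h
        · right
          have hjn : (j : ℕ) < n := lt_trans (Fin.lt_def.1 hj) i.2
          refine ⟨⟨j, hjn⟩, Fin.lt_def.2 (Fin.lt_def.1 hj), fun u hu => ?_⟩
          exact Subtype.ext (h u hu)
      · intro u hu l hl v hv
        exact hS3 u hu l.castSucc (Fin.castSucc_lt_castSucc_iff.2 hl) v
          (congrArg Subtype.val hv)
    have h3' : ∀ x, ∃ i u, f' i u = x := by
      rintro ⟨x, l, v, h⟩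
      exact ⟨l, v, Subtype.ext h⟩
    obtain ⟨g₁, hg₁, hg₁1, hcop, hg₁0, hkl₁⟩ := ih V₁ f' h1' h3'
    -- the last copy
    obtain ⟨S, hS, hS2, hS3⟩ := h1 (Fin.last n)
    haveI hSf : Fintype S := Fintype.ofFinite S
    set fl : V₀ ↪ V := f (Fin.last n) with hfl
    have hnew : ∀ u, u ∉ S → ∀ x, p x ≠ fl u := by
      rintro u hu ⟨x, l, v, rfl⟩
      exact hS3 u hu l.castSucc (Fin.castSucc_lt_last l) v
    have hc : ∀ x, (∃ a, p a = x) ∨ ∃ b, fl b = x := by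
      intro x
      obtain ⟨i, u, h⟩ := h3 x
      rcases Fin.eq_castSucc_or_eq_last i with ⟨l, rfl⟩ | rfl
      · exact Or.inl ⟨⟨x, l, u, h⟩, rfl⟩
      · exact Or.inr ⟨u, h⟩
    have hgr : (⨆ i, H.map (f i)) = (⨆ l, H.map (f' l)).map p ⊔ H.map fl := by
      ext a b
      rw [SimpleGraph.iSup_adj, SimpleGraph.sup_adj, SimpleGraph.map_adj, SimpleGraph.map_adj]
      constructor
      · rintro ⟨i, hi⟩
        rw [SimpleGraph.map_adj] at hi
        obtain ⟨u, v, huv, rfl, rfl⟩ := hi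
        rcases Fin.eq_castSucc_or_eq_last i with ⟨l, rfl⟩ | rfl
        · left
          refine ⟨f' l u, f' l v, ?_, rfl, rfl⟩
          rw [SimpleGraph.iSup_adj]
          refine ⟨l, ?_⟩
          rw [SimpleGraph.map_adj]
          exact ⟨u, v, huv, rfl, rfl⟩
        · right
          exact ⟨u, v, huv, rfl, rfl⟩
      · rintro (⟨u, v, huv, rfl, rfl⟩ | ⟨u, v, huv, rfl, rfl⟩)
        · rw [SimpleGraph.iSup_adj] at huv
          obtain ⟨l, hl⟩ := huv
          rw [SimpleGraph.map_adj] at hl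
          obtain ⟨u', v', huv', rfl, rfl⟩ := hl
          refine ⟨l.castSucc, ?_⟩
          rw [SimpleGraph.map_adj]
          exact ⟨u', v', huv', rfl, rfl⟩
        · refine ⟨Fin.last n, ?_⟩
          rw [SimpleGraph.map_adj]
          exact ⟨u, v, huv, rfl, rfl⟩
    -- the values on `S`, from the old part
    obtain ⟨σ, hσ, hedge, hlaw⟩ : ∃ σ : S → V₁, (∀ u : S, p (σ u) = fl u) ∧
        (∀ u v : S, H.Adj u v → (⨆ l, H.map (f' l)).Adj (σ u) (σ v)) ∧
        ∀ ψ : (S → Ω) → ℝ, ∑ z, g₁ z * ψ (fun u => z (σ u)) =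
          ∑ z, g z * ψ (fun u : S => z u) := by
      rcases hS2 with h | ⟨j, hj, h⟩
      · haveI hSe : IsEmpty S := by rw [h]; infer_instance
        refine ⟨fun u => hSe.elim u, fun u => hSe.elim u, fun u => hSe.elim u, fun ψ => ?_⟩
        have e1 : ∀ z : V₁ → Ω, (fun u : S => z (hSe.elim u)) = fun u => hSe.elim u :=
          fun z => funext fun u => hSe.elim u
        have e2 : ∀ z : V₀ → Ω, (fun u : S => z u) = fun u => hSe.elim u :=
          fun z => funext fun u => hSe.elim u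
        have e3 : ∀ z : V₁ → Ω, ψ (fun u : S => z (hSe.elim u)) = ψ (fun u => hSe.elim u) :=
          fun z => congrArg ψ (e1 z)
        have e4 : ∀ z : V₀ → Ω, ψ (fun u : S => z u) = ψ (fun u => hSe.elim u) :=
          fun z => congrArg ψ (e2 z)
        rw [sum_congr rfl fun z _ => congrArg (g₁ z * ·) (e3 z),
          sum_congr rfl fun z _ => congrArg (g z * ·) (e4 z), ← sum_mul, ← sum_mul, hg₁1, hg1]
      · have hjn : (j : ℕ) < n := Fin.lt_def.1 hj
        refine ⟨fun u => f' ⟨j, hjn⟩ u, fun u => (h u u.2).symm, fun u v huv => ?_, fun ψ => ?_⟩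
        · rw [SimpleGraph.iSup_adj]
          refine ⟨⟨j, hjn⟩, ?_⟩
          rw [SimpleGraph.map_adj]
          exact ⟨u, v, huv, rfl, rfl⟩
        · exact hcop ⟨j, hjn⟩ (fun z => ψ (fun u : S => z u))
    set r : (V₀ → Ω) → (S → Ω) := fun z u => z u with hr
    set q : (V₁ → Ω) → (S → Ω) := fun z u => z (σ u) with hq
    have hrj : ∀ (y : S → Ω) (x : (Sᶜ : Set V₀) → Ω), r (H234.jn S y x) = y := by
      intro y x
      funext u
      exact H234.jn_mem u.2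
    have hpq : ∀ z : V → Ω, r (z ∘ fl) = q (z ∘ p) := by
      intro z
      funext u
      show z (fl u) = z (p (σ u))
      rw [hσ]
    have hdec : ∀ F : (V₁ → Ω) → (V₀ → Ω) → ℝ, ∑ z : V → Ω, F (z ∘ p) (z ∘ fl) =
        ∑ z₁ : V₁ → Ω, ∑ x : (Sᶜ : Set V₀) → Ω, F z₁ (H234.jn S (q z₁) x) :=
      fun F => H128.sum_glueS p fl S σ hσ hnew hc F
    have hsum : ∀ F : (V₀ → Ω) → ℝ, ∑ z, F z =
        ∑ y : S → Ω, ∑ x : (Sᶜ : Set V₀) → Ω, F (H234.jn S y x) := fun F => H234.sum_jn S F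
    set gS : (S → Ω) → ℝ := fun y => ∑ x : (Sᶜ : Set V₀) → Ω, g (H234.jn S y x) with hgS
    have hgS' : ∀ y, gS y = ∑ x : (Sᶜ : Set V₀) → Ω, g (H234.jn S y x) := fun y => rfl
    have hsupp : ∀ z, gS (q z) = 0 → g₁ z = 0 :=
      fun z h => H128.gt_supp hrj hsum hg₁ hgS' hlaw h
    have hexp₁ := fun (A : (V₁ → Ω) → ℝ) =>
      H128.gt_exp₁ (pr := fun z : V → Ω => z ∘ p) (pn := fun z => z ∘ fl) hrj hpq hdec hgS'
        hsupp A
    have hexp₀ := fun (B : (V₀ → Ω) → ℝ) =>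
      H128.gt_exp₀ (pr := fun z : V → Ω => z ∘ p) (pn := fun z => z ∘ fl) hrj hpq hdec hsum hg
        hgS' hlaw B
    have hmw : ∀ z : V → Ω, mH (⨆ i, H.map (f i)) w U z *
        mH (H.induce S) w U (r (z ∘ fl)) = mH (⨆ l, H.map (f' l)) w U (z ∘ p) *
          mH H w U (z ∘ fl) := by
      intro z
      rw [hgr]
      exact hglue _ H p fl S σ hσ hnew hc hedge w U z
    refine ⟨H128.gt (fun z : V → Ω => z ∘ p) (fun z => z ∘ fl) r g₁ g gS,
      H128.gt_nonneg hg₁ hg hgS', ?_, ?_, ?_, ?_⟩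
    · have h := hexp₀ (fun _ => 1)
      simp only [mul_one] at h
      rw [h, hg1]
    · intro i φ
      rcases Fin.eq_castSucc_or_eq_last i with ⟨l, rfl⟩ | rfl
      · rw [← hcop l φ]
        exact hexp₁ (fun z => φ (z ∘ f' l))
      · exact hexp₀ φ
    · intro z hz
      have h := hmw z
      rw [hz, zero_mul] at h
      unfold H128.gt
      rcases mul_eq_zero.1 h.symm with h4 | h4
      · rw [hg₁0 _ h4, zero_mul, zero_div]
      · rw [hg0 _ h4, mul_zero, zero_div]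
    · refine H128.gt_kl hrj hpq hdec hsum hg₁ hg hg1 hgS' hlaw
        (m := fun z => mH (⨆ i, H.map (f i)) w U z) (m₁ := mH (⨆ l, H.map (f' l)) w U)
        (m₀ := mH H w U) (mS := mH (H.induce S) w U) ?_ hg₁0 hg0 ?_ hmw ?_ hkl₁ hkl
      · intro y
        exact mul_nonneg (prod_nonneg fun v _ => (hw.pos _).le) (prod_nonneg fun e _ => hw.nn _)
      · intro z hz
        exact H128.mH_induce H S hw.pos z hz
      · exact (H625.sum_mH_forest hS hw).le

/-- G: copies one after the other -/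
theorem H128.ent_tree_of (hglue : H128.GlueW) {V Ω : Type} [Fintype V] [DecidableEq V]
    [Fintype Ω] [DecidableEq Ω] {V₀ : Type} [Fintype V₀] [DecidableEq V₀] (H : SimpleGraph V₀)
    (n : ℕ) (f : Fin (n + 1) → V₀ ↪ V)
    (h1 : ∀ i, i ≠ 0 → ∃ j < i, ∃ S : Set V₀, (H.induce S).IsAcyclic ∧
      (∀ u ∈ S, f i u = f j u) ∧ ∀ u ∉ S, ∀ l < i, ∀ v, f l v ≠ f i u)
    (h3 : ∀ x, ∃ i u, f i u = x)
    {w : Ω → ℝ} {U : Sym2 Ω → ℝ} (hw : Wt w U) (hE : Ent H w U) :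
    Ent (⨆ i, H.map (f i)) w U := by
  classical
  obtain ⟨g, hg, hg1, hgm, hg0, hkl⟩ := hE
  obtain ⟨G, hG, hG1, hcop, hG0, hGkl⟩ := H128.tree_law hglue H hw hg hg1 hg0 hkl (n + 1) V f
    (fun i => by
      by_cases hi : i = 0
      · refine ⟨∅, ?_, Or.inl rfl, fun u _ l hl => ?_⟩
        · intro v
          exact (v.2).elim
        · rw [hi] at hl
          exact absurd hl (Fin.not_lt_zero l)
      · obtain ⟨j, hj, S, hS, hS2, hS3⟩ := h1 i hi
        exact ⟨S, hS, Or.inr ⟨j, hj, hS2⟩, hS3⟩) h3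
  refine ⟨G, hG, hG1, ?_, hG0, hGkl⟩
  intro v s
  obtain ⟨i, u, rfl⟩ := h3 v
  have h := hcop i (fun z => if z u = s then 1 else 0)
  rw [sum_filter, ← hgm u s, sum_filter]
  simp only [mul_ite, mul_one, mul_zero] at h
  exact h

end Vale.Agent.P050.Opt
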