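import Vale.Agent.P050.O.H128.CopCore

set_option linter.all false

/-!
Dense targets, assembled graphs: one more copy of a law, conditionally independent of the past
given its values on a set (abstract form).
-/

open Finset

namespace Vale.Agent.P050.Opt.H128

section core

variable {Z Z₁ Z₀ Y X : Type*} [Fintype Z] [Fintype Z₁] [Fintype Z₀] [Fintype Y] [Fintype X]

/-- the law with one more copy -/
noncomputable def gt (pr : Z → Z₁) (pn : Z → Z₀) (r : Z₀ → Y) (g₁ : Z₁ → ℝ) (g : Z₀ → ℝ)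
    (gS : Y → ℝ) (z : Z) : ℝ :=
  g₁ (pr z) * g (pn z) / gS (r (pn z))

variable {pr : Z → Z₁} {pn : Z → Z₀} {r : Z₀ → Y} {q : Z₁ → Y} {j : Y → X → Z₀}
  {g₁ : Z₁ → ℝ} {g : Z₀ → ℝ} {gS : Y → ℝ}

omit [Fintype Z] [Fintype Z₁] [Fintype Z₀] [Fintype Y] in
theorem gt_nonneg (hg₁ : ∀ z, 0 ≤ g₁ z) (hg : ∀ z, 0 ≤ g z)
    (hgS : ∀ y, gS y = ∑ x, g (j y x)) (z : Z) : 0 ≤ gt pr pn r g₁ g gS z := by
  have h1 : ∀ y, 0 ≤ gS y := fun y => by rw [hgS]; exact sum_nonneg fun x _ => hg _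
  exact div_nonneg (mul_nonneg (hg₁ _) (hg _)) (h1 _)

omit [Fintype Z] in
/-- the past has no mass where the law of the values on the set vanishes -/
theorem gt_supp (hr : ∀ y x, r (j y x) = y)
    (hsum : ∀ F : Z₀ → ℝ, ∑ z, F z = ∑ y, ∑ x, F (j y x))
    (hg₁ : ∀ z, 0 ≤ g₁ z) (hgS : ∀ y, gS y = ∑ x, g (j y x))
    (hlaw : ∀ ψ : Y → ℝ, ∑ z, g₁ z * ψ (q z) = ∑ z, g z * ψ (r z)) {z : Z₁}
    (h : gS (q z) = 0) : g₁ z = 0 := by
  classical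
  have h1 := hlaw (fun y => if y = q z then 1 else 0)
  have h2 : ∑ z', g z' * (if r z' = q z then (1:ℝ) else 0) = 0 := by
    rw [hsum]
    refine sum_eq_zero fun y _ => ?_
    simp only [hr]
    by_cases hy : y = q z
    · simp only [hy, if_true, mul_one]
      rw [← hgS, h]
    · simp only [hy, if_false, mul_zero, sum_const_zero]
  rw [h2] at h1
  have h3 : ∀ z' ∈ (univ : Finset Z₁), 0 ≤ g₁ z' * (if q z' = q z then (1:ℝ) else 0) := by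
    intro z' _
    refine mul_nonneg (hg₁ z') ?_
    split_ifs <;> norm_num
  have h4 := (sum_eq_zero_iff_of_nonneg h3).1 h1 z (mem_univ z)
  simpa using h4

omit [Fintype Y] in
theorem gt_exp₁ (hr : ∀ y x, r (j y x) = y) (hq : ∀ z, r (pn z) = q (pr z))
    (hdec : ∀ F : Z₁ → Z₀ → ℝ, ∑ z, F (pr z) (pn z) = ∑ z₁, ∑ x, F z₁ (j (q z₁) x))
    (hgS : ∀ y, gS y = ∑ x, g (j y x)) (hsupp : ∀ z, gS (q z) = 0 → g₁ z = 0)
    (A : Z₁ → ℝ) : ∑ z, gt pr pn r g₁ g gS z * A (pr z) = ∑ z, g₁ z * A z := by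
  have h := hdec (fun z₁ z₀ => g₁ z₁ * g z₀ / gS (r z₀) * A z₁)
  unfold gt
  rw [h]
  refine sum_congr rfl fun z _ => ?_
  simp only [hr]
  by_cases h0 : gS (q z) = 0
  · rw [hsupp z h0]
    simp
  · have e1 : ∀ x, g₁ z * g (j (q z) x) / gS (q z) * A z =
        g₁ z * A z / gS (q z) * g (j (q z) x) := fun x => by ring
    rw [sum_congr rfl fun x _ => e1 x, ← mul_sum, ← hgS]
    field_simp

theorem gt_exp₀ (hr : ∀ y x, r (j y x) = y) (hq : ∀ z, r (pn z) = q (pr z))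
    (hdec : ∀ F : Z₁ → Z₀ → ℝ, ∑ z, F (pr z) (pn z) = ∑ z₁, ∑ x, F z₁ (j (q z₁) x))
    (hsum : ∀ F : Z₀ → ℝ, ∑ z, F z = ∑ y, ∑ x, F (j y x))
    (hg : ∀ z, 0 ≤ g z) (hgS : ∀ y, gS y = ∑ x, g (j y x))
    (hlaw : ∀ ψ : Y → ℝ, ∑ z, g₁ z * ψ (q z) = ∑ z, g z * ψ (r z))
    (B : Z₀ → ℝ) : ∑ z, gt pr pn r g₁ g gS z * B (pn z) = ∑ z, g z * B z := by
  have h := hdec (fun z₁ z₀ => g₁ z₁ * g z₀ / gS (r z₀) * B z₀)
  unfold gt
  rw [h]
  have h1 := hlaw (fun y => (∑ x, g (j y x) * B (j y x)) / gS y)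
  have h2 : ∑ z₁, ∑ x, g₁ z₁ * g (j (q z₁) x) / gS (r (j (q z₁) x)) * B (j (q z₁) x) =
      ∑ z₁, g₁ z₁ * ((∑ x, g (j (q z₁) x) * B (j (q z₁) x)) / gS (q z₁)) := by
    refine sum_congr rfl fun z _ => ?_
    simp only [hr]
    rw [sum_div, mul_sum]
    exact sum_congr rfl fun x _ => by ring
  rw [h2, h1, hsum, hsum (fun z => g z * B z)]
  refine sum_congr rfl fun y _ => ?_
  simp only [hr]
  rw [← sum_mul, ← hgS]
  by_cases h0 : gS y = 0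
  · have h3 : ∀ x ∈ (univ : Finset X), g (j y x) = 0 := by
      have h4 := hgS y
      rw [h0] at h4
      exact (sum_eq_zero_iff_of_nonneg fun x _ => hg _).1 h4.symm
    rw [h0, zero_mul]
    exact (sum_eq_zero fun x hx => by rw [h3 x hx, zero_mul]).symm
  · field_simp

theorem gt_kl (hr : ∀ y x, r (j y x) = y) (hq : ∀ z, r (pn z) = q (pr z))
    (hdec : ∀ F : Z₁ → Z₀ → ℝ, ∑ z, F (pr z) (pn z) = ∑ z₁, ∑ x, F z₁ (j (q z₁) x))
    (hsum : ∀ F : Z₀ → ℝ, ∑ z, F z = ∑ y, ∑ x, F (j y x))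
    (hg₁ : ∀ z, 0 ≤ g₁ z) (hg : ∀ z, 0 ≤ g z) (hg1 : ∑ z, g z = 1)
    (hgS : ∀ y, gS y = ∑ x, g (j y x))
    (hlaw : ∀ ψ : Y → ℝ, ∑ z, g₁ z * ψ (q z) = ∑ z, g z * ψ (r z))
    {m : Z → ℝ} {m₁ : Z₁ → ℝ} {m₀ : Z₀ → ℝ} {mS : Y → ℝ}
    (hmS0 : ∀ y, 0 ≤ mS y) (hm1 : ∀ z, m₁ z = 0 → g₁ z = 0) (hm0 : ∀ z, m₀ z = 0 → g z = 0)
    (hmS : ∀ z, mS (r z) = 0 → m₀ z = 0)
    (hm : ∀ z, m z * mS (r (pn z)) = m₁ (pr z) * m₀ (pn z))
    (hmS1 : ∑ y, mS y ≤ 1) (hkl₁ : ∑ z, g₁ z * Real.log (g₁ z / m₁ z) ≤ 0)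
    (hkl : ∑ z, g z * Real.log (g z / m₀ z) ≤ 0) :
    ∑ z, gt pr pn r g₁ g gS z * Real.log (gt pr pn r g₁ g gS z / m z) ≤ 0 := by
  have hgS0 : ∀ y, 0 ≤ gS y := fun y => by rw [hgS]; exact sum_nonneg fun x _ => hg _
  have hsupp : ∀ z, gS (q z) = 0 → g₁ z = 0 := fun z h => gt_supp hr hsum hg₁ hgS hlaw h
  have hpt : ∀ z, gt pr pn r g₁ g gS z * Real.log (gt pr pn r g₁ g gS z / m z) =
      gt pr pn r g₁ g gS z * Real.log (g₁ (pr z) / m₁ (pr z)) +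
      gt pr pn r g₁ g gS z * Real.log (g (pn z) / m₀ (pn z)) -
      gt pr pn r g₁ g gS z * Real.log (gS (r (pn z)) / mS (r (pn z))) := by
    intro z
    by_cases h0 : gt pr pn r g₁ g gS z = 0
    · rw [h0]; simp
    · have h1 : g₁ (pr z) ≠ 0 := fun h => h0 (by unfold gt; rw [h]; simp)
      have h2 : g (pn z) ≠ 0 := fun h => h0 (by unfold gt; rw [h]; simp)
      have h3 : gS (r (pn z)) ≠ 0 := fun h => h0 (by unfold gt; rw [h]; simp)
      have h4 : m₁ (pr z) ≠ 0 := fun h => h1 (hm1 _ h)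
      have h5 : m₀ (pn z) ≠ 0 := fun h => h2 (hm0 _ h)
      have h6 : mS (r (pn z)) ≠ 0 := fun h => h5 (hmS _ h)
      have h7 : m z ≠ 0 := by
        intro h
        have h8 := hm z
        rw [h, zero_mul] at h8
        exact (mul_ne_zero h4 h5) h8.symm
      have h8 : gt pr pn r g₁ g gS z / m z * (gS (r (pn z)) / mS (r (pn z))) =
          (g₁ (pr z) / m₁ (pr z)) * (g (pn z) / m₀ (pn z)) := by
        have h9 : m z = m₁ (pr z) * m₀ (pn z) / mS (r (pn z)) := by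
          rw [eq_div_iff h6]; exact hm z
        rw [h9]
        unfold gt
        field_simp
      have h9 := congrArg Real.log h8
      rw [Real.log_mul (div_ne_zero h0 h7) (div_ne_zero h3 h6),
        Real.log_mul (div_ne_zero h1 h4) (div_ne_zero h2 h5)] at h9
      rw [← mul_add, ← mul_sub, ← h9]
      ring
  rw [sum_congr rfl fun z _ => hpt z, sum_sub_distrib, sum_add_distrib,
    gt_exp₁ hr hq hdec hgS hsupp (fun z => Real.log (g₁ z / m₁ z)),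
    gt_exp₀ hr hq hdec hsum hg hgS hlaw (fun z => Real.log (g z / m₀ z)),
    gt_exp₀ hr hq hdec hsum hg hgS hlaw (fun z => Real.log (gS (r z) / mS (r z)))]
  have hgS1 : ∑ y, gS y = 1 := by
    rw [← hg1, hsum]
    exact sum_congr rfl fun y _ => hgS y
  have hC : 0 ≤ ∑ y, gS y * Real.log (gS y / mS y) := by
    refine gibbs hgS0 hmS0 (fun y hy => ?_) hgS1 hmS1
    rw [hgS]
    exact sum_eq_zero fun x _ => hm0 _ (hmS _ (by rw [hr]; exact hy))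
  have hD : ∑ z, g z * Real.log (gS (r z) / mS (r z)) = ∑ y, gS y * Real.log (gS y / mS y) := by
    rw [hsum]
    refine sum_congr rfl fun y _ => ?_
    simp only [hr]
    rw [← sum_mul, ← hgS]
  rw [hD]
  linarith

end core

end Vale.Agent.P050.Opt.H128
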