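import Vale.Agent.P050.O.H128.GlueW

set_option linter.all false

/-!
Dense targets, assembled graphs: copies of a graph joined one after the other.
-/

open MeasureTheory Finset

namespace Vale.Agent.P050.Opt

open Vale.Agent.P050 Vale.Agent.P050.Dense

theorem H128.glueW : H128.GlueW := by
  intro V₁ V₀ V Ω _ _ _ G₁ H p f S _ σ hσ hnew hc hedge w U z
  exact H128.mH_glueS G₁ H p f S σ hσ hnew hc hedge w U z

variable {V : Type} [Fintype V] [DecidableEq V] {Ω : Type} [Fintype Ω] [DecidableEq Ω]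

/-- G: copies one after the other -/
theorem ent_tree {V₀ : Type} [Fintype V₀] [DecidableEq V₀] (H : SimpleGraph V₀) (n : ℕ)
    (f : Fin (n + 1) → V₀ ↪ V)
    (h1 : ∀ i, i ≠ 0 → ∃ j < i, ∃ S : Set V₀, (H.induce S).IsAcyclic ∧
      (∀ u ∈ S, f i u = f j u) ∧ ∀ u ∉ S, ∀ l < i, ∀ v, f l v ≠ f i u)
    (h3 : ∀ x, ∃ i u, f i u = x)
    {w : Ω → ℝ} {U : Sym2 Ω → ℝ} (hw : Wt w U) (hE : Ent H w U) :
    Ent (⨆ i, H.map (f i)) w U :=
  H128.ent_tree_of H128.glueW H n f h1 h3 hw hE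

end Vale.Agent.P050.Opt
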